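import Mathlib

/-!
A derandomized Chernoff bound (iterated first-moment method) for importance sampling
with respect to a probability density `q` on an arbitrary measure space.
-/

namespace Vale.Agent.H67

open MeasureTheory

variable {Ω : Type*} [MeasurableSpace Ω] {μ : Measure Ω}

theorem weighted_first_moment (q f : Ω → ℝ) (hq0 : ∀ ω, 0 ≤ q ω) (hq : Integrable q μ)
    (hq1 : ∫ ω, q ω ∂μ = 1) (hf : Integrable (fun ω => q ω * f ω) μ) (c : ℝ)
    (hc : ∫ ω, q ω * f ω ∂μ ≤ c) : ∃ ω, f ω ≤ c := by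
  by_contra hcon
  rw [not_exists] at hcon
  have hcon' : ∀ ω, c < f ω := fun ω => not_le.mp (hcon ω)
  have hnn : 0 ≤ fun ω => q ω * (f ω - c) :=
    fun ω => mul_nonneg (hq0 ω) (sub_nonneg.mpr (hcon' ω).le)
  have heq : (fun ω => q ω * (f ω - c)) = fun ω => q ω * f ω - c * q ω := by
    ext ω; ring
  have hint : Integrable (fun ω => q ω * (f ω - c)) μ := by
    rw [heq]; exact hf.sub (hq.const_mul c)
  have hI : ∫ ω, q ω * (f ω - c) ∂μ = ∫ ω, q ω * f ω ∂μ - c := by
    rw [heq, integral_sub hf (hq.const_mul c), integral_const_mul, hq1, mul_one]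
  have h0 : ∫ ω, q ω * (f ω - c) ∂μ = 0 :=
    le_antisymm (by rw [hI]; linarith) (integral_nonneg hnn)
  have hae := (integral_eq_zero_iff_of_nonneg hnn hint).mp h0
  have hq0' : q =ᵐ[μ] 0 := by
    filter_upwards [hae] with ω hω
    have h1 : q ω * (f ω - c) = 0 := hω
    rcases mul_eq_zero.mp h1 with h | h
    · exact h
    · exact absurd h (sub_pos.mpr (hcon' ω)).ne'
  have h2 : ∫ ω, q ω ∂μ = 0 := by
    rw [integral_congr_ae hq0']; simp
  rw [hq1] at h2
  exact one_ne_zero h2

theorem iterated_first_moment (q : Ω → ℝ) (hq0 : ∀ ω, 0 ≤ q ω) (hq : Integrable q μ)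
    (hq1 : ∫ ω, q ω ∂μ = 1) {J : Type*} [Fintype J] (c : J → Ω → ℝ) (m : J → ℝ)
    (hc0 : ∀ j ω, 0 ≤ c j ω) (hint : ∀ j, Integrable (fun ω => q ω * c j ω) μ)
    (hm : ∀ j, ∫ ω, q ω * c j ω ∂μ ≤ m j) :
    ∀ (N : ℕ) (κ : J → ℝ), (∀ j, 0 ≤ κ j) →
      ∃ ω : Fin N → Ω, ∑ j, κ j * ∏ l, c j (ω l) ≤ ∑ j, κ j * m j ^ N := by
  have hm0 : ∀ j, 0 ≤ m j := fun j =>
    le_trans (integral_nonneg (fun ω => mul_nonneg (hq0 ω) (hc0 j ω))) (hm j)
  intro N
  induction N with
  | zero =>
    intro κ _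
    exact ⟨fun l => l.elim0, by simp⟩
  | succ N ih =>
    intro κ hκ
    have hfint : Integrable (fun ω => q ω * ∑ j, (κ j * m j ^ N) * c j ω) μ := by
      have : (fun ω => q ω * ∑ j, (κ j * m j ^ N) * c j ω) =
          fun ω => ∑ j, (κ j * m j ^ N) * (q ω * c j ω) := by
        ext ω; rw [Finset.mul_sum]; refine Finset.sum_congr rfl (fun j _ => ?_); ring
      rw [this]
      exact integrable_finsetSum _ (fun j _ => (hint j).const_mul _)
    have hfI : ∫ ω, q ω * ∑ j, (κ j * m j ^ N) * c j ω ∂μ ≤ ∑ j, κ j * m j ^ (N + 1) := by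
      have : (fun ω => q ω * ∑ j, (κ j * m j ^ N) * c j ω) =
          fun ω => ∑ j, (κ j * m j ^ N) * (q ω * c j ω) := by
        ext ω; rw [Finset.mul_sum]; refine Finset.sum_congr rfl (fun j _ => ?_); ring
      rw [this, integral_finsetSum _ (fun j _ => (hint j).const_mul _)]
      refine Finset.sum_le_sum (fun j _ => ?_)
      rw [integral_const_mul, pow_succ, ← mul_assoc]
      exact mul_le_mul_of_nonneg_left (hm j) (mul_nonneg (hκ j) (pow_nonneg (hm0 j) N))
    obtain ⟨ω0, hω0⟩ := weighted_first_moment q _ hq0 hq hq1 hfint _ hfI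
    obtain ⟨ω', hω'⟩ := ih (fun j => κ j * c j ω0) (fun j => mul_nonneg (hκ j) (hc0 j ω0))
    refine ⟨Fin.cons ω0 ω', ?_⟩
    calc ∑ j, κ j * ∏ l, c j (Fin.cons (α := fun _ => Ω) ω0 ω' l)
        = ∑ j, κ j * c j ω0 * ∏ l, c j (ω' l) := by
          refine Finset.sum_congr rfl (fun j _ => ?_)
          rw [Fin.prod_univ_succ]
          simp only [Fin.cons_zero, Fin.cons_succ]
          ring
      _ ≤ ∑ j, κ j * c j ω0 * m j ^ N := hω'
      _ = ∑ j, (κ j * m j ^ N) * c j ω0 := by
          refine Finset.sum_congr rfl (fun j _ => ?_); ring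
      _ ≤ ∑ j, κ j * m j ^ (N + 1) := hω0


theorem exp_le_quad {x : ℝ} (h0 : 0 ≤ x) (h1 : x ≤ 1) : Real.exp x ≤ 1 + x + x ^ 2 := by
  have h := Real.abs_exp_sub_one_sub_id_le (x := x) (by rw [abs_of_nonneg h0]; exact h1)
  have h2 := (abs_le.mp h).2
  linarith

theorem exp_neg_le_quad {x : ℝ} (h0 : 0 ≤ x) (h1 : x ≤ 1) :
    Real.exp (-x) ≤ 1 - x + x ^ 2 := by
  have h := Real.abs_exp_sub_one_sub_id_le (x := -x)
    (by rw [abs_neg, abs_of_nonneg h0]; exact h1)
  have h2 := (abs_le.mp h).2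
  have h3 : (-x) ^ 2 = x ^ 2 := by ring
  rw [h3] at h2
  linarith

/-- Importance sampling with relative error `ε`: if every `g e` is a probability density
dominated by `K * q`, where `q` is a probability density, then `N > 4 K log(2|E|) / ε^2`
sample points suffice to estimate all the integrals `∫ g e = 1` within `1 ± ε`. -/
theorem sampling {E : Type*} [Fintype E] (q : Ω → ℝ) (g : E → Ω → ℝ) (K ε : ℝ) (N : ℕ)
    (hq0 : ∀ ω, 0 ≤ q ω) (hq : Integrable q μ) (hq1 : ∫ ω, q ω ∂μ = 1)
    (hg0 : ∀ e ω, 0 ≤ g e ω) (hg : ∀ e, Integrable (g e) μ) (hg1 : ∀ e, ∫ ω, g e ω ∂μ = 1)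
    (hgK : ∀ e ω, g e ω ≤ K * q ω) (hε : 0 < ε) (hε1 : ε ≤ 1)
    (hN : 4 * K * Real.log (2 * Fintype.card E) < N * ε ^ 2) :
    ∃ ω : Fin N → Ω, ∀ e, (1 - ε) * N ≤ ∑ l, g e (ω l) / q (ω l) ∧
      ∑ l, g e (ω l) / q (ω l) ≤ (1 + ε) * N := by
  classical
  rcases isEmpty_or_nonempty E with hE | hE
  · have hΩ : Nonempty Ω := by
      by_contra h
      have hemp : IsEmpty Ω := not_nonempty_iff.mp h
      have h0 : μ = 0 := Measure.eq_zero_of_isEmpty μ
      rw [h0, integral_zero_measure] at hq1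
      exact zero_ne_one hq1
    exact ⟨fun _ => Classical.choice hΩ, fun e => (hE.false e).elim⟩
  · obtain ⟨e0⟩ := hE
    have hK1 : 1 ≤ K := by
      have h := integral_mono (hg e0) (hq.const_mul K) (fun ω => hgK e0 ω)
      rw [hg1, integral_const_mul, hq1, mul_one] at h
      exact h
    have hK : 0 < K := by linarith
    set θ := ε / (2 * K) with hθ
    have hθ0 : 0 < θ := by positivity
    have hθK : θ * K = ε / 2 := by rw [hθ]; field_simp
    have hθle : θ ≤ 1 / 2 := by
      have : θ = θ * K / K := by field_simp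
      rw [this, hθK, div_le_iff₀ hK]
      nlinarith
    set Y : E → Ω → ℝ := fun e ω => g e ω / q ω with hY
    have hY0 : ∀ e ω, 0 ≤ Y e ω := fun e ω => div_nonneg (hg0 e ω) (hq0 ω)
    have hYK : ∀ e ω, Y e ω ≤ K := by
      intro e ω
      rcases eq_or_lt_of_le (hq0 ω) with h | h
      · simp only [hY]; rw [← h, div_zero]; exact hK.le
      · simp only [hY]; rw [div_le_iff₀ h]; exact hgK e ω
    have hqY : ∀ e ω, q ω * Y e ω = g e ω := by
      intro e ω
      rcases eq_or_lt_of_le (hq0 ω) with h | h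
      · have h2 : g e ω = 0 :=
          le_antisymm (by have h3 := hgK e ω; rw [← h, mul_zero] at h3; exact h3) (hg0 e ω)
        simp only [hY]; rw [← h, h2]; simp
      · simp only [hY]; field_simp
    set a := θ + θ ^ 2 * K with ha
    set b := θ - θ ^ 2 * K with hb
    have ha0 : 0 ≤ a := by rw [ha]; positivity
    have hb1 : b ≤ 1 := by
      have : 0 ≤ θ ^ 2 * K := by positivity
      rw [hb]; linarith
    have hx0 : ∀ e ω, 0 ≤ θ * Y e ω := fun e ω => mul_nonneg hθ0.le (hY0 e ω)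
    have hx1 : ∀ e ω, θ * Y e ω ≤ 1 := by
      intro e ω
      calc θ * Y e ω ≤ θ * K := mul_le_mul_of_nonneg_left (hYK e ω) hθ0.le
        _ = ε / 2 := hθK
        _ ≤ 1 := by linarith
    have hsq : ∀ e ω, (θ * Y e ω) ^ 2 ≤ θ ^ 2 * K * Y e ω := by
      intro e ω
      have h1 : Y e ω * Y e ω ≤ K * Y e ω := mul_le_mul_of_nonneg_right (hYK e ω) (hY0 e ω)
      have h2 : θ ^ 2 * (Y e ω * Y e ω) ≤ θ ^ 2 * (K * Y e ω) :=
        mul_le_mul_of_nonneg_left h1 (sq_nonneg θ)
      calc (θ * Y e ω) ^ 2 = θ ^ 2 * (Y e ω * Y e ω) := by ring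
        _ ≤ θ ^ 2 * (K * Y e ω) := h2
        _ = θ ^ 2 * K * Y e ω := by ring
    have hup : ∀ e ω, Real.exp (θ * Y e ω) ≤ 1 + a * Y e ω := by
      intro e ω
      have h1 := exp_le_quad (hx0 e ω) (hx1 e ω)
      have h2 := hsq e ω
      have h3 : 1 + a * Y e ω = 1 + θ * Y e ω + θ ^ 2 * K * Y e ω := by rw [ha]; ring
      rw [h3]; linarith
    have hdn : ∀ e ω, Real.exp (-(θ * Y e ω)) ≤ 1 - b * Y e ω := by
      intro e ω
      have h1 := exp_neg_le_quad (hx0 e ω) (hx1 e ω)
      have h2 := hsq e ω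
      have h3 : 1 - b * Y e ω = 1 - θ * Y e ω + θ ^ 2 * K * Y e ω := by rw [hb]; ring
      rw [h3]; linarith
    set c : E ⊕ E → Ω → ℝ :=
      Sum.elim (fun e ω => 1 + a * Y e ω) (fun e ω => 1 - b * Y e ω) with hc
    set m : E ⊕ E → ℝ := Sum.elim (fun _ => 1 + a) (fun _ => 1 - b) with hm
    set κ : E ⊕ E → ℝ := Sum.elim (fun _ => Real.exp (-(θ * (1 + ε) * N)))
      (fun _ => Real.exp (θ * (1 - ε) * N)) with hκ
    have hc0 : ∀ j ω, 0 ≤ c j ω := by
      rintro (e | e) ω
      · exact le_trans (Real.exp_pos _).le (hup e ω)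
      · exact le_trans (Real.exp_pos _).le (hdn e ω)
    have hcint : ∀ j, Integrable (fun ω => q ω * c j ω) μ := by
      rintro (e | e)
      · have h1 : (fun ω => q ω * c (Sum.inl e) ω) = fun ω => q ω + a * g e ω := by
          ext ω
          simp only [hc, Sum.elim_inl]
          rw [← hqY e ω]; ring
        rw [h1]; exact hq.add ((hg e).const_mul a)
      · have h1 : (fun ω => q ω * c (Sum.inr e) ω) = fun ω => q ω - b * g e ω := by
          ext ω
          simp only [hc, Sum.elim_inr]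
          rw [← hqY e ω]; ring
        rw [h1]; exact hq.sub ((hg e).const_mul b)
    have hcm : ∀ j, ∫ ω, q ω * c j ω ∂μ ≤ m j := by
      rintro (e | e)
      · have h1 : (fun ω => q ω * c (Sum.inl e) ω) = fun ω => q ω + a * g e ω := by
          ext ω
          simp only [hc, Sum.elim_inl]
          rw [← hqY e ω]; ring
        rw [h1, integral_add hq ((hg e).const_mul a), integral_const_mul, hq1, hg1]
        simp [hm]
      · have h1 : (fun ω => q ω * c (Sum.inr e) ω) = fun ω => q ω - b * g e ω := by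
          ext ω
          simp only [hc, Sum.elim_inr]
          rw [← hqY e ω]; ring
        rw [h1, integral_sub hq ((hg e).const_mul b), integral_const_mul, hq1, hg1]
        simp [hm]
    have hκ0 : ∀ j, 0 ≤ κ j := by
      rintro (e | e) <;> simp only [hκ, Sum.elim_inl, Sum.elim_inr] <;> exact (Real.exp_pos _).le
    obtain ⟨ω, hω⟩ := iterated_first_moment q hq0 hq hq1 c m hc0 hcint hcm N κ hκ0
    -- the right-hand side is less than one
    set x := (N : ℝ) * ε ^ 2 / (4 * K) with hx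
    have hRHS : ∑ j, κ j * m j ^ N ≤ 2 * Fintype.card E * Real.exp (-x) := by
      rw [Fintype.sum_sum_type]
      simp only [hκ, hm, Sum.elim_inl, Sum.elim_inr, Finset.sum_const, Finset.card_univ,
        nsmul_eq_mul]
      have h1 : Real.exp (-(θ * (1 + ε) * N)) * (1 + a) ^ N ≤ Real.exp (-x) := by
        have h2 : (1 + a) ^ N ≤ Real.exp a ^ N :=
          pow_le_pow_left₀ (by linarith) (by linarith [Real.add_one_le_exp a]) N
        rw [← Real.exp_nat_mul] at h2
        calc Real.exp (-(θ * (1 + ε) * N)) * (1 + a) ^ N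
            ≤ Real.exp (-(θ * (1 + ε) * N)) * Real.exp (N * a) :=
              mul_le_mul_of_nonneg_left h2 (Real.exp_pos _).le
          _ = Real.exp (-(θ * (1 + ε) * N) + N * a) := (Real.exp_add _ _).symm
          _ = Real.exp (-x) := by
              congr 1
              rw [ha, hx, hθ]; field_simp; ring
      have h3 : Real.exp (θ * (1 - ε) * N) * (1 - b) ^ N ≤ Real.exp (-x) := by
        have h2 : (1 - b) ^ N ≤ Real.exp (-b) ^ N :=
          pow_le_pow_left₀ (by linarith) (by linarith [Real.add_one_le_exp (-b)]) N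
        rw [← Real.exp_nat_mul] at h2
        calc Real.exp (θ * (1 - ε) * N) * (1 - b) ^ N
            ≤ Real.exp (θ * (1 - ε) * N) * Real.exp (N * -b) :=
              mul_le_mul_of_nonneg_left h2 (Real.exp_pos _).le
          _ = Real.exp (θ * (1 - ε) * N + N * -b) := (Real.exp_add _ _).symm
          _ = Real.exp (-x) := by
              congr 1
              rw [hb, hx, hθ]; field_simp; ring
      have hcard : (0:ℝ) ≤ Fintype.card E := Nat.cast_nonneg _
      nlinarith [mul_le_mul_of_nonneg_left h1 hcard, mul_le_mul_of_nonneg_left h3 hcard]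
    have hcardpos : (0:ℝ) < Fintype.card E := by
      have : 0 < Fintype.card E := Fintype.card_pos_iff.mpr ⟨e0⟩
      exact_mod_cast this
    have hlt1 : 2 * (Fintype.card E : ℝ) * Real.exp (-x) < 1 := by
      have h1 : Real.log (2 * Fintype.card E) < x := by
        rw [hx, lt_div_iff₀ (by positivity)]
        linarith
      have h2 : (2 * (Fintype.card E : ℝ)) < Real.exp x := by
        have h3 := Real.exp_lt_exp.mpr h1
        rwa [Real.exp_log (by positivity)] at h3
      rw [Real.exp_neg, ← div_eq_mul_inv, div_lt_one (Real.exp_pos _)]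
      exact h2
    have hterm : ∀ j, κ j * ∏ l, c j (ω l) < 1 := by
      intro j
      have h1 : κ j * ∏ l, c j (ω l) ≤ ∑ j, κ j * ∏ l, c j (ω l) :=
        Finset.single_le_sum (f := fun j => κ j * ∏ l, c j (ω l))
          (fun i _ => mul_nonneg (hκ0 i) (Finset.prod_nonneg (fun l _ => hc0 i (ω l))))
          (Finset.mem_univ j)
      linarith
    refine ⟨ω, fun e => ⟨?_, ?_⟩⟩
    · have h1 := hterm (Sum.inr e)
      simp only [hκ, hc, Sum.elim_inr] at h1
      have h2 : Real.exp (-(θ * ∑ l, Y e (ω l))) ≤ ∏ l, (1 - b * Y e (ω l)) := by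
        rw [Finset.mul_sum, ← Finset.sum_neg_distrib, Real.exp_sum]
        exact Finset.prod_le_prod (fun l _ => (Real.exp_pos _).le) (fun l _ => hdn e (ω l))
      have h3 : Real.exp (θ * (1 - ε) * N + -(θ * ∑ l, Y e (ω l))) < 1 := by
        rw [Real.exp_add]
        exact lt_of_le_of_lt (mul_le_mul_of_nonneg_left h2 (Real.exp_pos _).le) h1
      rw [Real.exp_lt_one_iff] at h3
      have h4 : θ * ((1 - ε) * N) < θ * ∑ l, Y e (ω l) := by linarith
      exact (lt_of_mul_lt_mul_left h4 hθ0.le).le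
    · have h1 := hterm (Sum.inl e)
      simp only [hκ, hc, Sum.elim_inl] at h1
      have h2 : Real.exp (θ * ∑ l, Y e (ω l)) ≤ ∏ l, (1 + a * Y e (ω l)) := by
        rw [Finset.mul_sum, Real.exp_sum]
        exact Finset.prod_le_prod (fun l _ => (Real.exp_pos _).le) (fun l _ => hup e (ω l))
      have h3 : Real.exp (-(θ * (1 + ε) * N) + θ * ∑ l, Y e (ω l)) < 1 := by
        rw [Real.exp_add]
        exact lt_of_le_of_lt (mul_le_mul_of_nonneg_left h2 (Real.exp_pos _).le) h1
      rw [Real.exp_lt_one_iff] at h3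
      have h4 : θ * ∑ l, Y e (ω l) < θ * ((1 + ε) * N) := by linarith
      exact (lt_of_mul_lt_mul_left h4 hθ0.le).le

end Vale.Agent.H67
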