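import Mathlib

/-!
Sparse sets of pairs in a finite metric space that control Lipschitz constants
(a dual form of metric spanners).
-/

namespace Vale.Agent.H67

/-- `Dominates V H σ`: every real function on the space whose difference quotients along the
pairs of `H` are at most `L` has all difference quotients on `V` at most `σ * L`. -/
def Dominates {α : Type*} [PseudoMetricSpace α] (V : Finset α) (H : Finset (α × α)) (σ : ℝ) :
    Prop :=
  ∀ (t : α → ℝ) (L : ℝ), 0 ≤ L → (∀ h ∈ H, |t h.1 - t h.2| ≤ L * dist h.1 h.2) →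
    ∀ u ∈ V, ∀ v ∈ V, |t u - t v| ≤ σ * L * dist u v

variable {α : Type*} [PseudoMetricSpace α]

theorem exists_radius (V : Finset α) (s : ℕ) (hs : 1 ≤ s) (hV : s ≤ V.card) (v : α) :
    ∃ r : ℝ, s ≤ (V.filter (fun w => dist v w ≤ r)).card ∧
      (V.filter (fun w => dist v w < r)).card < s := by
  classical
  have hne : V.Nonempty := Finset.card_pos.mp (lt_of_lt_of_le hs hV)
  set R := (V.image (dist v)).filter (fun r => s ≤ (V.filter (fun w => dist v w ≤ r)).card)
    with hR
  have hRne : R.Nonempty := by
    obtain ⟨w0, hw0, hmax⟩ := Finset.exists_max_image V (dist v) hne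
    refine ⟨dist v w0, ?_⟩
    rw [hR, Finset.mem_filter]
    refine ⟨Finset.mem_image_of_mem _ hw0, ?_⟩
    have : V.filter (fun w => dist v w ≤ dist v w0) = V :=
      Finset.filter_true_of_mem (fun w hw => hmax w hw)
    rw [this]; exact hV
  obtain ⟨r, hrR, hrmin⟩ := Finset.exists_min_image R id hRne
  refine ⟨r, (Finset.mem_filter.mp hrR).2, ?_⟩
  by_contra hcon
  rw [not_lt] at hcon
  have hne2 : (V.filter (fun w => dist v w < r)).Nonempty :=
    Finset.card_pos.mp (lt_of_lt_of_le hs hcon)
  obtain ⟨w1, hw1, hmax1⟩ := Finset.exists_max_image _ (dist v) hne2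
  have hw1' := Finset.mem_filter.mp hw1
  have hmem : dist v w1 ∈ R := by
    rw [hR, Finset.mem_filter]
    refine ⟨Finset.mem_image_of_mem _ hw1'.1, le_trans hcon (Finset.card_le_card ?_)⟩
    intro w hw
    have hw' := Finset.mem_filter.mp hw
    exact Finset.mem_filter.mpr ⟨hw'.1, hmax1 w hw⟩
  have h3 := hrmin _ hmem
  simp only [id] at h3
  linarith [hw1'.2]

omit [PseudoMetricSpace α] in
theorem exists_centers (ρ : α → ℝ) (B : α → Finset α) :
    ∀ (W : Finset α), (∀ v ∈ W, (B v).Nonempty) →
    ∃ A : Finset α, A ⊆ W ∧ (∀ a ∈ A, ∀ b ∈ A, a ≠ b → Disjoint (B a) (B b)) ∧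
      ∀ v ∈ W, ∃ a ∈ A, ρ a ≤ ρ v ∧ ¬ Disjoint (B v) (B a) := by
  classical
  intro W
  induction W using Finset.strongInduction with
  | H W ih =>
    intro hne
    rcases W.eq_empty_or_nonempty with rfl | hW
    · exact ⟨∅, by simp, by simp, by simp⟩
    · obtain ⟨a0, ha0, hmin⟩ := Finset.exists_min_image W ρ hW
      set W' := W.filter (fun v => Disjoint (B v) (B a0)) with hW'
      have hsub : W' ⊂ W := by
        refine Finset.ssubset_iff_subset_ne.mpr ⟨Finset.filter_subset _ _, ?_⟩
        intro heq
        have h1 : a0 ∈ W' := heq ▸ ha0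
        have h2 := (Finset.mem_filter.mp h1).2
        exact (hne a0 ha0).ne_empty ((Finset.disjoint_self_iff_empty _).mp h2)
      obtain ⟨A', hA'sub, hA'disj, hA'cov⟩ :=
        ih W' hsub (fun v hv => hne v (Finset.mem_of_mem_filter v hv))
      refine ⟨insert a0 A', ?_, ?_, ?_⟩
      · intro x hx
        rcases Finset.mem_insert.mp hx with rfl | hx
        · exact ha0
        · exact Finset.filter_subset _ _ (hA'sub hx)
      · intro a ha b hb hab
        rcases Finset.mem_insert.mp ha with ha1 | ha1 <;>
          rcases Finset.mem_insert.mp hb with hb1 | hb1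
        · exact absurd (ha1.trans hb1.symm) hab
        · rw [ha1]
          exact ((Finset.mem_filter.mp (hA'sub hb1)).2).symm
        · rw [hb1]
          exact (Finset.mem_filter.mp (hA'sub ha1)).2
        · exact hA'disj a ha1 b hb1 hab
      · intro v hv
        by_cases hd : Disjoint (B v) (B a0)
        · obtain ⟨a, ha, h1, h2⟩ := hA'cov v (Finset.mem_filter.mpr ⟨hv, hd⟩)
          exact ⟨a, Finset.mem_insert_of_mem ha, h1, h2⟩
        · exact ⟨a0, Finset.mem_insert_self _ _, hmin v hv, hd⟩


theorem one_step (s : ℕ) (hs : 1 ≤ s) (V : Finset α) :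
    ∃ (A : Finset α) (E : Finset (α × α)), A ⊆ V ∧ A.card * s ≤ V.card ∧ E ⊆ V ×ˢ V ∧
      E.card ≤ s * V.card ∧
      ∀ (σ : ℝ), 0 ≤ σ → ∀ (t : α → ℝ) (L : ℝ), 0 ≤ L →
        (∀ h ∈ E, |t h.1 - t h.2| ≤ L * dist h.1 h.2) →
        (∀ a ∈ A, ∀ b ∈ A, |t a - t b| ≤ σ * L * dist a b) →
        ∀ u ∈ V, ∀ v ∈ V, |t u - t v| ≤ (4 + 5 * σ) * L * dist u v := by
  classical
  by_cases hVs : V.card < s
  · refine ⟨∅, V ×ˢ V, by simp, by simp, subset_rfl, ?_, ?_⟩
    · rw [Finset.card_product]
      exact Nat.mul_le_mul_right _ hVs.le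
    · intro σ hσ t L hL hE _ u hu v hv
      have h1 := hE (u, v) (Finset.mem_product.mpr ⟨hu, hv⟩)
      have h2 : 0 ≤ L * dist u v := mul_nonneg hL dist_nonneg
      calc |t u - t v| ≤ L * dist u v := h1
        _ ≤ (4 + 5 * σ) * (L * dist u v) := by nlinarith
        _ = (4 + 5 * σ) * L * dist u v := by ring
  · rw [not_lt] at hVs
    have hrad := fun v => exists_radius V s hs hVs v
    choose ρ hρ1 hρ2 using hrad
    set B : α → Finset α := fun v => V.filter (fun w => dist v w ≤ ρ v) with hB
    have hBne : ∀ v ∈ V, (B v).Nonempty := by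
      intro v _
      apply Finset.card_pos.mp
      exact lt_of_lt_of_le hs (hρ1 v)
    obtain ⟨A, hAV, hAdisj, hAcov⟩ := exists_centers ρ B V hBne
    choose! a ha using hAcov
    have hdist : ∀ v ∈ V, dist v (a v) ≤ 2 * ρ v := by
      intro v hv
      obtain ⟨_, h1, h2⟩ := ha v hv
      rw [Finset.not_disjoint_iff] at h2
      obtain ⟨w, hw1, hw2⟩ := h2
      have hw1' := (Finset.mem_filter.mp hw1).2
      have hw2' := (Finset.mem_filter.mp hw2).2
      have := dist_triangle_right v (a v) w
      linarith
    set E : Finset (α × α) :=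
      (V.biUnion (fun v => (V.filter (fun w => dist v w < ρ v)).image (fun w => (v, w)))) ∪
        V.image (fun v => (v, a v)) with hE
    refine ⟨A, E, hAV, ?_, ?_, ?_, ?_⟩
    · have h1 : (A.biUnion B).card = ∑ x ∈ A, (B x).card :=
        Finset.card_biUnion (fun x hx y hy hxy => hAdisj x hx y hy hxy)
      have h2 : A.biUnion B ⊆ V := by
        intro w hw
        obtain ⟨x, _, hx⟩ := Finset.mem_biUnion.mp hw
        exact (Finset.mem_filter.mp hx).1
      have h3 : A.card * s ≤ ∑ x ∈ A, (B x).card := by
        rw [← smul_eq_mul, ← Finset.sum_const]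
        exact Finset.sum_le_sum (fun x _ => hρ1 x)
      calc A.card * s ≤ ∑ x ∈ A, (B x).card := h3
        _ = (A.biUnion B).card := h1.symm
        _ ≤ V.card := Finset.card_le_card h2
    · intro e he
      rw [hE, Finset.mem_union] at he
      rcases he with he | he
      · obtain ⟨v, hv, he⟩ := Finset.mem_biUnion.mp he
        obtain ⟨w, hw, rfl⟩ := Finset.mem_image.mp he
        exact Finset.mem_product.mpr ⟨hv, (Finset.mem_filter.mp hw).1⟩
      · obtain ⟨v, hv, rfl⟩ := Finset.mem_image.mp he
        exact Finset.mem_product.mpr ⟨hv, hAV (ha v hv).1⟩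
    · have h1 : (V.biUnion (fun v => (V.filter (fun w => dist v w < ρ v)).image
          (fun w => (v, w)))).card ≤ ∑ _v ∈ V, (s - 1) := by
        refine le_trans Finset.card_biUnion_le (Finset.sum_le_sum ?_)
        intro v _
        refine le_trans Finset.card_image_le ?_
        have := hρ2 v
        omega
      have h2 : (V.image (fun v => (v, a v))).card ≤ V.card := Finset.card_image_le
      calc E.card ≤ _ + _ := Finset.card_union_le _ _
        _ ≤ ∑ _v ∈ V, (s - 1) + V.card := Nat.add_le_add h1 h2
        _ = V.card * (s - 1) + V.card := by rw [Finset.sum_const, smul_eq_mul]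
        _ = s * V.card := by
            obtain ⟨k, rfl⟩ : ∃ k, s = k + 1 := ⟨s - 1, by omega⟩
            simp only [Nat.add_sub_cancel]
            ring
    · intro σ hσ t L hL hEt hAt u hu v hv
      have hd0 : 0 ≤ dist u v := dist_nonneg
      by_cases h1 : dist u v < ρ u
      · have hmem : (u, v) ∈ E := by
          rw [hE, Finset.mem_union]
          left
          exact Finset.mem_biUnion.mpr
            ⟨u, hu, Finset.mem_image.mpr ⟨v, Finset.mem_filter.mpr ⟨hv, h1⟩, rfl⟩⟩
        have h2 := hEt _ hmem
        have h3 : 0 ≤ L * dist u v := mul_nonneg hL hd0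
        calc |t u - t v| ≤ L * dist u v := h2
          _ ≤ (4 + 5 * σ) * (L * dist u v) := by nlinarith
          _ = (4 + 5 * σ) * L * dist u v := by ring
      · by_cases h1' : dist v u < ρ v
        · have hmem : (v, u) ∈ E := by
            rw [hE, Finset.mem_union]
            left
            exact Finset.mem_biUnion.mpr
              ⟨v, hv, Finset.mem_image.mpr ⟨u, Finset.mem_filter.mpr ⟨hu, h1'⟩, rfl⟩⟩
          have h2 := hEt _ hmem
          simp only at h2
          rw [abs_sub_comm, dist_comm] at h2
          have h3 : 0 ≤ L * dist u v := mul_nonneg hL hd0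
          calc |t u - t v| ≤ L * dist u v := h2
            _ ≤ (4 + 5 * σ) * (L * dist u v) := by nlinarith
            _ = (4 + 5 * σ) * L * dist u v := by ring
        · rw [not_lt] at h1 h1'
          rw [dist_comm] at h1'
          have hmu : (u, a u) ∈ E := by
            rw [hE, Finset.mem_union]; right
            exact Finset.mem_image.mpr ⟨u, hu, rfl⟩
          have hmv : (v, a v) ∈ E := by
            rw [hE, Finset.mem_union]; right
            exact Finset.mem_image.mpr ⟨v, hv, rfl⟩
          have e1 := hEt _ hmu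
          have e2 := hEt _ hmv
          simp only at e1 e2
          have e3 := hAt (a u) (ha u hu).1 (a v) (ha v hv).1
          have d1 := hdist u hu
          have d2 := hdist v hv
          have d3 : dist (a u) (a v) ≤ dist u (a u) + dist u v + dist v (a v) := by
            have := dist_triangle4 (a u) u v (a v)
            rw [dist_comm (a u) u] at this
            exact this
          have tri : |t u - t v| ≤ |t u - t (a u)| + |t (a u) - t (a v)| + |t v - t (a v)| := by
            have t1 := abs_sub_le (t u) (t (a u)) (t v)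
            have t2 := abs_sub_le (t (a u)) (t (a v)) (t v)
            rw [abs_sub_comm (t (a v)) (t v)] at t2
            linarith
          have x1 : dist u (a u) ≤ 2 * dist u v := by linarith
          have x2 : dist v (a v) ≤ 2 * dist u v := by linarith
          have x3 : dist (a u) (a v) ≤ 5 * dist u v := by linarith
          have y1 : L * dist u (a u) ≤ L * (2 * dist u v) := mul_le_mul_of_nonneg_left x1 hL
          have y2 : L * dist v (a v) ≤ L * (2 * dist u v) := mul_le_mul_of_nonneg_left x2 hL
          have y3 : σ * L * dist (a u) (a v) ≤ σ * L * (5 * dist u v) :=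
            mul_le_mul_of_nonneg_left x3 (mul_nonneg hσ hL)
          calc |t u - t v| ≤ |t u - t (a u)| + |t (a u) - t (a v)| + |t v - t (a v)| := tri
            _ ≤ L * (2 * dist u v) + σ * L * (5 * dist u v) + L * (2 * dist u v) := by linarith
            _ = (4 + 5 * σ) * L * dist u v := by ring

/-- Sparse dominating sets: `q + 1` levels, branching parameter `s`. -/
theorem exists_spanner (s : ℕ) (hs : 1 ≤ s) : ∀ (q : ℕ) (V : Finset α), V.card ≤ s ^ (q + 1) →
    ∃ H : Finset (α × α), H ⊆ V ×ˢ V ∧ H.card ≤ 2 * (q + 1) * s * V.card ∧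
      Dominates V H (2 * 5 ^ q - 1) := by
  classical
  intro q
  induction q with
  | zero =>
    intro V hV
    refine ⟨V ×ˢ V, subset_rfl, ?_, ?_⟩
    · rw [Finset.card_product]
      simp only [pow_one, zero_add] at hV ⊢
      nlinarith
    · intro t L hL hH u hu v hv
      have key := hH (u, v) (Finset.mem_product.mpr ⟨hu, hv⟩)
      have e : (2 * (5:ℝ) ^ 0 - 1) = 1 := by norm_num
      rw [e, one_mul]
      exact key
  | succ q ih =>
    intro V hV
    obtain ⟨A, E, hAV, hAs, hEV, hEcard, hdom⟩ := one_step s hs V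
    have hA : A.card ≤ s ^ (q + 1) := by
      have : A.card * s ≤ s ^ (q + 1) * s := by rw [← pow_succ]; exact le_trans hAs hV
      exact Nat.le_of_mul_le_mul_right this (by omega)
    obtain ⟨H1, hH1sub, hH1card, hH1dom⟩ := ih A hA
    refine ⟨E ∪ H1, ?_, ?_, ?_⟩
    · apply Finset.union_subset hEV
      exact hH1sub.trans (Finset.product_subset_product hAV hAV)
    · have e1 : 2 * (q + 1) * s * A.card = 2 * (q + 1) * (A.card * s) := by ring
      have e2 : 2 * (q + 1) * (A.card * s) ≤ 2 * (q + 1) * V.card :=
        Nat.mul_le_mul_left _ hAs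
      have e3 : V.card ≤ s * V.card := Nat.le_mul_of_pos_left _ (by omega)
      have e4 : 2 * (q + 1) * V.card ≤ 2 * (q + 1) * (s * V.card) := Nat.mul_le_mul_left _ e3
      calc (E ∪ H1).card ≤ E.card + H1.card := Finset.card_union_le _ _
        _ ≤ s * V.card + 2 * (q + 1) * s * A.card := Nat.add_le_add hEcard hH1card
        _ ≤ s * V.card + 2 * (q + 1) * (s * V.card) := by rw [e1]; omega
        _ ≤ 2 * (q + 1 + 1) * s * V.card := by
            have : 2 * (q + 1 + 1) * s * V.card = 2 * (s * V.card) + 2 * (q + 1) * (s * V.card) := by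
              ring
            rw [this]; omega
    · intro t L hL hH u hu v hv
      have hE' : ∀ h ∈ E, |t h.1 - t h.2| ≤ L * dist h.1 h.2 :=
        fun h hh => hH h (Finset.mem_union_left _ hh)
      have hA' : ∀ a ∈ A, ∀ b ∈ A, |t a - t b| ≤ (2 * 5 ^ q - 1) * L * dist a b :=
        hH1dom t L hL (fun h hh => hH h (Finset.mem_union_right _ hh))
      have hσ : (0:ℝ) ≤ 2 * 5 ^ q - 1 := by
        have : (1:ℝ) ≤ 5 ^ q := one_le_pow₀ (by norm_num)
        linarith
      have key := hdom _ hσ t L hL hE' hA' u hu v hv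
      have e : (4 + 5 * (2 * (5:ℝ) ^ q - 1)) = 2 * 5 ^ (q + 1) - 1 := by ring
      rw [e] at key; exact key

end Vale.Agent.H67
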