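import Mathlib
import Vale.Agent.H67.Spanner
import Vale.Agent.H67.Sampling

/-!
Coordinate sampling for finite subsets of `L_p(μ)`.
-/

namespace Vale.Agent.H67

open MeasureTheory

variable {Ω : Type*} [MeasurableSpace Ω] {μ : Measure Ω} {P : ENNReal} [hP1 : Fact (1 ≤ P)]

theorem integrable_diff (hP : P ≠ ⊤) (u v : Lp ℝ P μ) :
    Integrable (fun ω => |u ω - v ω| ^ P.toReal) μ := by
  have hP0 : P ≠ 0 := (lt_of_lt_of_le zero_lt_one hP1.out).ne'
  have h1 := (Lp.memLp (u - v)).integrable_norm_rpow hP0 hP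
  refine h1.congr ?_
  filter_upwards [Lp.coeFn_sub u v] with ω hω
  rw [hω]; simp [Real.norm_eq_abs]

theorem integral_diff (hP : P ≠ ⊤) (u v : Lp ℝ P μ) :
    ∫ ω, |u ω - v ω| ^ P.toReal ∂μ = ‖u - v‖ ^ P.toReal := by
  have hP0 : P ≠ 0 := (lt_of_lt_of_le zero_lt_one hP1.out).ne'
  have hpos : 0 < P.toReal := ENNReal.toReal_pos hP0 hP
  have h1 : ∫ ω, |u ω - v ω| ^ P.toReal ∂μ =
      ∫ ω, ‖(u - v : Lp ℝ P μ) ω‖ ^ P.toReal ∂μ := by
    refine integral_congr_ae ?_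
    filter_upwards [Lp.coeFn_sub u v] with ω hω
    rw [hω]; simp [Real.norm_eq_abs]
  have h2 : 0 ≤ ∫ ω, ‖(u - v : Lp ℝ P μ) ω‖ ^ P.toReal ∂μ :=
    integral_nonneg (fun ω => Real.rpow_nonneg (norm_nonneg _) _)
  rw [h1, Lp.norm_def, (Lp.memLp (u - v)).eLpNorm_eq_integral_rpow_norm hP0 hP,
    ENNReal.toReal_ofReal (Real.rpow_nonneg h2 _), Real.rpow_inv_rpow h2 hpos.ne']

theorem pointwise_dom (hP : P ≠ ⊤) (X : Finset (Lp ℝ P μ))
    (H : Finset (Lp ℝ P μ × Lp ℝ P μ)) (σ : ℝ) (hσ : 0 ≤ σ)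
    (hdom : Dominates X H σ) (ω : Ω) (u v : Lp ℝ P μ) (hu : u ∈ X) (hv : v ∈ X) :
    |u ω - v ω| ^ P.toReal ≤ σ ^ P.toReal * ‖u - v‖ ^ P.toReal *
      ∑ h ∈ H, |h.1 ω - h.2 ω| ^ P.toReal / ‖h.1 - h.2‖ ^ P.toReal := by
  have hP0 : P ≠ 0 := (lt_of_lt_of_le zero_lt_one hP1.out).ne'
  have hpos : 0 < P.toReal := ENNReal.toReal_pos hP0 hP
  set p := P.toReal with hp
  set S := ∑ h ∈ H, |h.1 ω - h.2 ω| ^ p / ‖h.1 - h.2‖ ^ p with hS
  have hS0 : 0 ≤ S := Finset.sum_nonneg (fun h _ =>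
    div_nonneg (Real.rpow_nonneg (abs_nonneg _) _) (Real.rpow_nonneg (norm_nonneg _) _))
  set L := S ^ (1 / p) with hL
  have hL0 : 0 ≤ L := Real.rpow_nonneg hS0 _
  have hLp : L ^ p = S := by
    rw [hL, ← Real.rpow_mul hS0, one_div, inv_mul_cancel₀ hpos.ne', Real.rpow_one]
  have hH : ∀ h ∈ H, |(fun x : Lp ℝ P μ => (x : Ω → ℝ) ω) h.1 -
      (fun x : Lp ℝ P μ => (x : Ω → ℝ) ω) h.2| ≤ L * dist h.1 h.2 := by
    intro h hh
    by_cases heq : h.1 = h.2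
    · rw [heq]; simp
    · have hd : 0 < ‖h.1 - h.2‖ := norm_pos_iff.mpr (sub_ne_zero.mpr heq)
      rw [dist_eq_norm]
      have hterm : |h.1 ω - h.2 ω| ^ p / ‖h.1 - h.2‖ ^ p ≤ S :=
        Finset.single_le_sum
          (f := fun h : Lp ℝ P μ × Lp ℝ P μ => |h.1 ω - h.2 ω| ^ p / ‖h.1 - h.2‖ ^ p)
          (fun h _ => div_nonneg (Real.rpow_nonneg (abs_nonneg _) _)
            (Real.rpow_nonneg (norm_nonneg _) _)) hh
      have h2 : (|h.1 ω - h.2 ω| / ‖h.1 - h.2‖) ^ p ≤ L ^ p := by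
        rw [Real.div_rpow (abs_nonneg _) hd.le, hLp]; exact hterm
      have h3 : |h.1 ω - h.2 ω| / ‖h.1 - h.2‖ ≤ L :=
        (Real.rpow_le_rpow_iff (div_nonneg (abs_nonneg _) hd.le) hL0 hpos).mp h2
      rwa [div_le_iff₀ hd] at h3
  have key := hdom (fun x => (x : Ω → ℝ) ω) L hL0 hH u hu v hv
  rw [dist_eq_norm] at key
  calc |u ω - v ω| ^ p ≤ (σ * L * ‖u - v‖) ^ p :=
        Real.rpow_le_rpow (abs_nonneg _) key hpos.le
    _ = σ ^ p * ‖u - v‖ ^ p * S := by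
        rw [Real.mul_rpow (mul_nonneg hσ hL0) (norm_nonneg _), Real.mul_rpow hσ hL0, hLp]
        ring


/-- Coordinate sampling: if `H` dominates `X` with constant `σ`, then about
`σ ^ p * |H| * log |X| / ε ^ 2` weighted point evaluations reproduce all the `p`-th powers
of the pairwise distances of `X` up to factors `1 ± ε`. -/
theorem embed_core (hP : P ≠ ⊤) (X : Finset (Lp ℝ P μ)) (H : Finset (Lp ℝ P μ × Lp ℝ P μ))
    (σ : ℝ) (hσ : 0 ≤ σ) (hdom : Dominates X H σ) (ε : ℝ) (hε : 0 < ε) (hε1 : ε ≤ 1) (N : ℕ)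
    (hX : 2 ≤ X.card)
    (hN : 4 * (σ ^ P.toReal * H.card) * Real.log (2 * (X.card : ℝ) ^ 2) < N * ε ^ 2) :
    ∃ (ω : Fin N → Ω) (w : Fin N → ℝ), (∀ l, 0 ≤ w l) ∧ ∀ u ∈ X, ∀ v ∈ X,
      (1 - ε) * ‖u - v‖ ^ P.toReal ≤ ∑ l, w l * |u (ω l) - v (ω l)| ^ P.toReal ∧
      ∑ l, w l * |u (ω l) - v (ω l)| ^ P.toReal ≤ (1 + ε) * ‖u - v‖ ^ P.toReal := by
  classical
  have hP0 : P ≠ 0 := (lt_of_lt_of_le zero_lt_one hP1.out).ne'
  have hpos : 0 < P.toReal := ENNReal.toReal_pos hP0 hP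
  set p := P.toReal with hp
  set G : Lp ℝ P μ × Lp ℝ P μ → Ω → ℝ := fun h ω => |h.1 ω - h.2 ω| ^ p with hG
  set I : Lp ℝ P μ × Lp ℝ P μ → ℝ := fun h => ‖h.1 - h.2‖ ^ p with hI
  have hGint : ∀ h, Integrable (G h) μ := fun h => integrable_diff hP h.1 h.2
  have hGI : ∀ h, ∫ ω, G h ω ∂μ = I h := fun h => integral_diff hP h.1 h.2
  have hG0 : ∀ h ω, 0 ≤ G h ω := fun h ω => Real.rpow_nonneg (abs_nonneg _) _
  have hI0 : ∀ h, 0 ≤ I h := fun h => Real.rpow_nonneg (norm_nonneg _) _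
  have hIpos : ∀ h : Lp ℝ P μ × Lp ℝ P μ, h.1 ≠ h.2 → 0 < I h := fun h hne =>
    Real.rpow_pos_of_pos (norm_pos_iff.mpr (sub_ne_zero.mpr hne)) _
  have hIdiag : ∀ h : Lp ℝ P μ × Lp ℝ P μ, h.1 = h.2 → I h = 0 := by
    intro h heq
    simp only [hI]
    rw [heq, sub_self, norm_zero, Real.zero_rpow hpos.ne']
  set c : ℝ := ((H.filter (fun h => h.1 ≠ h.2)).card : ℝ) with hc
  have hcsum : ∑ h ∈ H, I h / I h = c := by
    rw [hc, Finset.card_filter, Nat.cast_sum]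
    refine Finset.sum_congr rfl (fun h _ => ?_)
    by_cases heq : h.1 = h.2
    · rw [hIdiag h heq]; simp [heq]
    · rw [div_self (hIpos h heq).ne']; simp [heq]
  set T : Ω → ℝ := fun ω => ∑ h ∈ H, G h ω / I h with hT
  have hT0 : ∀ ω, 0 ≤ T ω := fun ω =>
    Finset.sum_nonneg (fun h _ => div_nonneg (hG0 h ω) (hI0 h))
  have hTint : Integrable T μ := integrable_finsetSum _ (fun h _ => (hGint h).div_const _)
  have hTI : ∫ ω, T ω ∂μ = c := by
    simp only [hT]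
    rw [integral_finsetSum _ (fun h _ => (hGint h).div_const _), ← hcsum]
    refine Finset.sum_congr rfl (fun h _ => ?_)
    rw [integral_div, hGI]
  obtain ⟨u0, hu0, v0, hv0, huv0⟩ := Finset.one_lt_card.mp (by omega : 1 < X.card)
  have hdomω : ∀ ω, ∀ u ∈ X, ∀ v ∈ X, G (u, v) ω ≤ σ ^ p * I (u, v) * T ω :=
    fun ω u hu v hv => pointwise_dom hP X H σ hσ hdom ω u v hu hv
  have hcpos : 0 < c := by
    rcases eq_or_lt_of_le (by rw [hc]; positivity : (0:ℝ) ≤ c) with h0 | h0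
    · exfalso
      have hT0' : T =ᵐ[μ] 0 := by
        have : ∫ ω, T ω ∂μ = 0 := by rw [hTI, ← h0]
        exact (integral_eq_zero_iff_of_nonneg hT0 hTint).mp this
      apply huv0
      apply Lp.ext
      filter_upwards [hT0'] with ω hω
      have h1 := hdomω ω u0 hu0 v0 hv0
      have h2 : T ω = 0 := hω
      rw [h2, mul_zero] at h1
      have h3 : G (u0, v0) ω = 0 := le_antisymm h1 (hG0 _ ω)
      simp only [hG] at h3
      have h4 : |u0 ω - v0 ω| = 0 := by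
        by_contra hne
        have : 0 < |u0 ω - v0 ω| ^ p :=
          Real.rpow_pos_of_pos (lt_of_le_of_ne (abs_nonneg _) (Ne.symm hne)) _
        linarith
      exact sub_eq_zero.mp (abs_eq_zero.mp h4)
    · exact h0
  set q : Ω → ℝ := fun ω => T ω / c with hq
  have hq0 : ∀ ω, 0 ≤ q ω := fun ω => div_nonneg (hT0 ω) hcpos.le
  have hqint : Integrable q μ := hTint.div_const _
  have hq1 : ∫ ω, q ω ∂μ = 1 := by
    simp only [hq]
    rw [integral_div, hTI, div_self hcpos.ne']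
  set g : X.offDiag → Ω → ℝ := fun e ω => G e.1 ω / I e.1 with hg
  have hemem : ∀ e : X.offDiag, e.1.1 ∈ X ∧ e.1.2 ∈ X ∧ e.1.1 ≠ e.1.2 :=
    fun e => Finset.mem_offDiag.mp e.2
  have hg0 : ∀ e ω, 0 ≤ g e ω := fun e ω => div_nonneg (hG0 _ ω) (hI0 _)
  have hgint : ∀ e, Integrable (g e) μ := fun e => (hGint _).div_const _
  have hg1 : ∀ e, ∫ ω, g e ω ∂μ = 1 := by
    intro e
    simp only [hg]
    rw [integral_div, hGI, div_self (hIpos _ (hemem e).2.2).ne']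
  set K : ℝ := σ ^ p * c with hK
  have hgK : ∀ e ω, g e ω ≤ K * q ω := by
    intro e ω
    have h1 := hdomω ω e.1.1 (hemem e).1 e.1.2 (hemem e).2.1
    have h2 : K * q ω = σ ^ p * T ω := by
      simp only [hK, hq]; field_simp
    rw [h2]
    simp only [hg]
    rw [div_le_iff₀ (hIpos _ (hemem e).2.2)]
    calc G e.1 ω ≤ σ ^ p * I (e.1.1, e.1.2) * T ω := h1
      _ = σ ^ p * T ω * I e.1 := by ring
  have hcardE : Fintype.card X.offDiag = X.card * X.card - X.card := by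
    rw [Fintype.card_coe, Finset.offDiag_card]
  have hn2 : (2:ℝ) ≤ X.card := by exact_mod_cast hX
  have hEpos : 1 ≤ Fintype.card X.offDiag := by
    rw [hcardE]
    have : X.card * 2 ≤ X.card * X.card := Nat.mul_le_mul_left _ hX
    omega
  have hEle : (Fintype.card X.offDiag : ℝ) ≤ (X.card : ℝ) ^ 2 := by
    have : Fintype.card X.offDiag ≤ X.card ^ 2 := by
      rw [hcardE, sq]; exact Nat.sub_le _ _
    exact_mod_cast this
  have hEpos' : (1:ℝ) ≤ Fintype.card X.offDiag := by exact_mod_cast hEpos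
  have hlog1 : 0 ≤ Real.log (2 * (Fintype.card X.offDiag : ℝ)) :=
    Real.log_nonneg (by linarith)
  have hlog2 : Real.log (2 * (Fintype.card X.offDiag : ℝ)) ≤
      Real.log (2 * (X.card : ℝ) ^ 2) :=
    Real.log_le_log (by linarith) (by linarith)
  have hσp : 0 ≤ σ ^ p := Real.rpow_nonneg hσ _
  have hcle : c ≤ H.card := by
    rw [hc]; exact_mod_cast Finset.card_filter_le _ _
  have hKle : K ≤ σ ^ p * H.card := mul_le_mul_of_nonneg_left hcle hσp
  have hK0 : 0 ≤ σ ^ p * (H.card : ℝ) := mul_nonneg hσp (Nat.cast_nonneg _)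
  have hN' : 4 * K * Real.log (2 * (Fintype.card X.offDiag : ℝ)) < N * ε ^ 2 := by
    have h1 : K * Real.log (2 * (Fintype.card X.offDiag : ℝ)) ≤
        σ ^ p * H.card * Real.log (2 * (X.card : ℝ) ^ 2) :=
      mul_le_mul hKle hlog2 hlog1 hK0
    linarith
  obtain ⟨ω, hω⟩ := sampling (μ := μ) q g K ε N hq0 hqint hq1 hg0 hgint hg1 hgK hε hε1 hN'
  have hNpos : (0:ℝ) < N := by
    have h1 : 0 ≤ σ ^ p * H.card * Real.log (2 * (X.card : ℝ) ^ 2) :=
      mul_nonneg hK0 (le_trans hlog1 hlog2)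
    have h2 : (0:ℝ) < N * ε ^ 2 := by linarith
    rcases eq_or_lt_of_le (Nat.cast_nonneg N : (0:ℝ) ≤ N) with h | h
    · rw [← h, zero_mul] at h2; exact absurd h2 (lt_irrefl 0)
    · exact h
  refine ⟨ω, fun l => 1 / (N * q (ω l)), fun l => ?_, ?_⟩
  · exact div_nonneg zero_le_one (mul_nonneg hNpos.le (hq0 _))
  · intro u hu v hv
    by_cases huv : u = v
    · subst huv
      simp [Real.zero_rpow hpos.ne']
    · have hmem : (u, v) ∈ X.offDiag := Finset.mem_offDiag.mpr ⟨hu, hv, huv⟩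
      have hIuv : 0 < I (u, v) := hIpos (u, v) huv
      obtain ⟨h1, h2⟩ := hω ⟨(u, v), hmem⟩
      have hsum : ∑ l, 1 / (N * q (ω l)) * |u (ω l) - v (ω l)| ^ p =
          I (u, v) / N * ∑ l, g ⟨(u, v), hmem⟩ (ω l) / q (ω l) := by
        rw [Finset.mul_sum]
        refine Finset.sum_congr rfl (fun l _ => ?_)
        simp only [hg, hG]
        by_cases hq0' : q (ω l) = 0
        · simp [hq0']
        · field_simp
      have hfac : 0 ≤ I (u, v) / N := div_nonneg hIuv.le hNpos.le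
      have hI' : I (u, v) = ‖u - v‖ ^ p := rfl
      rw [hsum, ← hI']
      constructor
      · calc (1 - ε) * I (u, v) = I (u, v) / N * ((1 - ε) * N) := by field_simp
          _ ≤ I (u, v) / N * ∑ l, g ⟨(u, v), hmem⟩ (ω l) / q (ω l) :=
              mul_le_mul_of_nonneg_left h1 hfac
      · calc I (u, v) / N * ∑ l, g ⟨(u, v), hmem⟩ (ω l) / q (ω l)
            ≤ I (u, v) / N * ((1 + ε) * N) := mul_le_mul_of_nonneg_left h2 hfac
          _ = (1 + ε) * I (u, v) := by field_simp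

end Vale.Agent.H67
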