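import Mathlib
import Vale.Agent.H67.LpEmbed

/-!
Additive-error dimension reduction for finite families in `L_p` with an integrable envelope
(`ε`-isometric dimension reduction of incompressible families): if `max_i |x_i|` has `L_p`
norm at most `K`, then about `(2K)^(2p) log n / ε^2` weighted point evaluations reproduce all
`p`-th powers of pairwise distances up to an additive error `ε`.
-/

namespace Vale.Agent.H67

open MeasureTheory

universe u

theorem abs_sub_rpow_le (p : ℝ) (hp : 0 ≤ p) (a b G : ℝ) (ha : |a| ^ p ≤ G) (hb : |b| ^ p ≤ G) :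
    |a - b| ^ p ≤ 2 ^ p * G := by
  have h1 : |a - b| ≤ 2 * max |a| |b| := by
    have h0 := abs_sub a b
    have h2 := le_max_left |a| |b|
    have h3 := le_max_right |a| |b|
    linarith
  have h4 : (max |a| |b|) ^ p ≤ G := by
    rcases max_choice |a| |b| with h | h <;> rw [h] <;> assumption
  calc |a - b| ^ p ≤ (2 * max |a| |b|) ^ p := Real.rpow_le_rpow (abs_nonneg _) h1 hp
    _ = 2 ^ p * (max |a| |b|) ^ p :=
        Real.mul_rpow (by norm_num) (le_max_of_le_left (abs_nonneg a))
    _ ≤ 2 ^ p * G := mul_le_mul_of_nonneg_left h4 (Real.rpow_nonneg (by norm_num) _)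

variable {Ω : Type*} [MeasurableSpace Ω] {μ : Measure Ω} {P : ENNReal} [hP1 : Fact (1 ≤ P)]

/-- The `p`-th power of a distance is at most `2^p` times the integral of the envelope. -/
theorem norm_sub_rpow_le_envelope (hP : P ≠ ⊤) (u v : Lp ℝ P μ) (G : Ω → ℝ)
    (hGint : Integrable G μ) (hu : ∀ ω, |u ω| ^ P.toReal ≤ G ω)
    (hv : ∀ ω, |v ω| ^ P.toReal ≤ G ω) :
    ‖u - v‖ ^ P.toReal ≤ 2 ^ P.toReal * ∫ ω, G ω ∂μ := by
  have hP0 : P ≠ 0 := (lt_of_lt_of_le zero_lt_one hP1.out).ne'
  have hpos : 0 < P.toReal := ENNReal.toReal_pos hP0 hP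
  rw [← integral_diff hP u v, ← integral_const_mul]
  exact integral_mono (integrable_diff hP u v) (hGint.const_mul _)
    (fun ω => abs_sub_rpow_le _ hpos.le _ _ _ (hu ω) (hv ω))

/-- Additive-error coordinate sampling with an integrable envelope. -/
theorem additive_core (hP : P ≠ ⊤) {ι : Type*} [Fintype ι] (x : ι → Lp ℝ P μ) (G : Ω → ℝ)
    (hG0 : ∀ ω, 0 ≤ G ω) (hGint : Integrable G μ)
    (hGx : ∀ i ω, |x i ω| ^ P.toReal ≤ G ω) (ε : ℝ) (hε : 0 < ε) :
    ∃ (d : ℕ) (y : ι → PiLp P (fun _ : Fin d => ℝ)),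
      (d : ℝ) ≤ 27 * (4 : ℝ) ^ P.toReal * (∫ ω, G ω ∂μ) ^ 2 *
        Real.log (4 * (Fintype.card ι : ℝ) ^ 2) / ε ^ 2 + 1 ∧
      ∀ i j, |‖y i - y j‖ ^ P.toReal - ‖x i - x j‖ ^ P.toReal| ≤ ε := by
  classical
  have hP0 : P ≠ 0 := (lt_of_lt_of_le zero_lt_one hP1.out).ne'
  have hpos : 0 < P.toReal := ENNReal.toReal_pos hP0 hP
  set p := P.toReal with hp
  set T := ∫ ω, G ω ∂μ with hT
  have hT0 : 0 ≤ T := integral_nonneg hG0
  set h : ι → ι → Ω → ℝ := fun i j ω => |x i ω - x j ω| ^ p with hh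
  set D : ι → ι → ℝ := fun i j => ‖x i - x j‖ ^ p with hD
  have hhint : ∀ i j, Integrable (h i j) μ := fun i j => integrable_diff hP (x i) (x j)
  have hhD : ∀ i j, ∫ ω, h i j ω ∂μ = D i j := fun i j => integral_diff hP (x i) (x j)
  have hh0 : ∀ i j ω, 0 ≤ h i j ω := fun i j ω => Real.rpow_nonneg (abs_nonneg _) _
  have h2p : (0:ℝ) < 2 ^ p := Real.rpow_pos_of_pos (by norm_num) _
  have hhG : ∀ i j ω, h i j ω ≤ 2 ^ p * G ω := fun i j ω =>
    abs_sub_rpow_le p hpos.le _ _ _ (hGx i ω) (hGx j ω)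
  have hD0 : ∀ i j, 0 ≤ D i j := fun i j => Real.rpow_nonneg (norm_nonneg _) _
  have hDT : ∀ i j, D i j ≤ 2 ^ p * T := fun i j =>
    norm_sub_rpow_le_envelope hP (x i) (x j) G hGint (hGx i) (hGx j)
  set θ : ℝ := 2 ^ p / 2 with hθ
  set c : ℝ := 2 ^ p + θ with hc
  have hθ0 : 0 < θ := by rw [hθ]; positivity
  have hc0 : 0 < c := by rw [hc]; positivity
  have hc3 : c = 3 * θ := by rw [hc, hθ]; ring
  have hsq : ((2:ℝ) ^ p) ^ 2 = (4:ℝ) ^ p := by
    rw [← Real.rpow_natCast, ← Real.rpow_mul (by norm_num), mul_comm,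
      Real.rpow_mul (by norm_num)]
    norm_num
  have hc2 : c ^ 2 = 9 / 4 * (4:ℝ) ^ p := by
    rw [← hsq, hc, hθ]; ring
  set n := Fintype.card ι with hn
  have hlog0 : 0 ≤ Real.log (4 * (n : ℝ) ^ 2) := by
    rcases Nat.eq_zero_or_pos n with h0 | h0
    · rw [h0]; simp
    · apply Real.log_nonneg
      have : (1:ℝ) ≤ n := by exact_mod_cast h0
      nlinarith
  by_cases htriv : c * T < ε
  · -- trivial case: all distances are below the error
    refine ⟨0, fun _ => 0, ?_, ?_⟩
    · simp only [Nat.cast_zero]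
      have h4p : (0:ℝ) ≤ (4:ℝ) ^ p := Real.rpow_nonneg (by norm_num) _
      have : 0 ≤ 27 * (4:ℝ) ^ p * T ^ 2 * Real.log (4 * (n : ℝ) ^ 2) / ε ^ 2 := by positivity
      linarith
    · intro i j
      simp only [sub_self, norm_zero, Real.zero_rpow hpos.ne', zero_sub, abs_neg]
      have h1 := hDT i j
      have h2 : 2 ^ p * T ≤ c * T := by
        rw [hc]; nlinarith
      have h3 : |‖x i - x j‖ ^ p| = D i j := abs_of_nonneg (hD0 i j)
      rw [h3]; linarith
  · rw [not_lt] at htriv
    have hTpos : 0 < T := by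
      rcases eq_or_lt_of_le hT0 with h0 | h0
      · rw [← h0, mul_zero] at htriv; linarith
      · exact h0
    set q : Ω → ℝ := fun ω => G ω / T with hq
    have hq0 : ∀ ω, 0 ≤ q ω := fun ω => div_nonneg (hG0 ω) hTpos.le
    have hqint : Integrable q μ := hGint.div_const _
    have hq1 : ∫ ω, q ω ∂μ = 1 := by
      simp only [hq]
      rw [integral_div, ← hT, div_self hTpos.ne']
    have hden1 : ∀ i j, θ * T ≤ D i j + θ * T := fun i j => by linarith [hD0 i j]
    have hden2 : ∀ i j, θ * T ≤ c * T - D i j := fun i j => by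
      have := hDT i j
      rw [hc]; linarith
    have hθT : 0 < θ * T := mul_pos hθ0 hTpos
    set g : (ι × ι) × Bool → Ω → ℝ := fun e ω =>
      if e.2 then (h e.1.1 e.1.2 ω + θ * G ω) / (D e.1.1 e.1.2 + θ * T)
      else (c * G ω - h e.1.1 e.1.2 ω) / (c * T - D e.1.1 e.1.2) with hg
    have hnum2 : ∀ i j ω, 0 ≤ c * G ω - h i j ω := fun i j ω => by
      have h1 := hhG i j ω
      have h2 := hG0 ω
      rw [hc]; nlinarith
    have hg0 : ∀ e ω, 0 ≤ g e ω := by
      rintro ⟨⟨i, j⟩, b⟩ ω
      cases b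
      · simp only [hg, Bool.false_eq_true, if_false]
        exact div_nonneg (hnum2 i j ω) (le_trans hθT.le (hden2 i j))
      · simp only [hg, if_true]
        exact div_nonneg (add_nonneg (hh0 i j ω) (mul_nonneg hθ0.le (hG0 ω)))
          (le_trans hθT.le (hden1 i j))
    have hgint : ∀ e, Integrable (g e) μ := by
      rintro ⟨⟨i, j⟩, b⟩
      cases b
      · simp only [hg, Bool.false_eq_true, if_false]
        exact ((hGint.const_mul c).sub (hhint i j)).div_const _
      · simp only [hg, if_true]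
        exact ((hhint i j).add (hGint.const_mul θ)).div_const _
    have hg1 : ∀ e, ∫ ω, g e ω ∂μ = 1 := by
      rintro ⟨⟨i, j⟩, b⟩
      cases b
      · simp only [hg, Bool.false_eq_true, if_false]
        rw [integral_div, integral_sub (hGint.const_mul c) (hhint i j), integral_const_mul,
          hhD, ← hT]
        exact div_self (lt_of_lt_of_le hθT (hden2 i j)).ne'
      · simp only [hg, if_true]
        rw [integral_div, integral_add (hhint i j) (hGint.const_mul θ), integral_const_mul,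
          hhD, ← hT]
        exact div_self (lt_of_lt_of_le hθT (hden1 i j)).ne'
    have hgK : ∀ e ω, g e ω ≤ 3 * q ω := by
      rintro ⟨⟨i, j⟩, b⟩ ω
      have hGω := hG0 ω
      have hqT : q ω * (θ * T) = θ * G ω := by
        simp only [hq]; field_simp
      cases b
      · simp only [hg, Bool.false_eq_true, if_false]
        rw [div_le_iff₀ (lt_of_lt_of_le hθT (hden2 i j))]
        have h1 : c * G ω - h i j ω ≤ c * G ω := by linarith [hh0 i j ω]
        have h2 : 3 * q ω * (θ * T) ≤ 3 * q ω * (c * T - D i j) :=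
          mul_le_mul_of_nonneg_left (hden2 i j) (by have := hq0 ω; linarith)
        have h3 : 3 * q ω * (θ * T) = c * G ω := by
          rw [mul_assoc, hqT, hc3]; ring
        linarith
      · simp only [hg, if_true]
        rw [div_le_iff₀ (lt_of_lt_of_le hθT (hden1 i j))]
        have h1 : h i j ω + θ * G ω ≤ c * G ω := by
          have := hhG i j ω
          rw [hc]; linarith
        have h2 : 3 * q ω * (θ * T) ≤ 3 * q ω * (D i j + θ * T) :=
          mul_le_mul_of_nonneg_left (hden1 i j) (by have := hq0 ω; linarith)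
        have h3 : 3 * q ω * (θ * T) = c * G ω := by
          rw [mul_assoc, hqT, hc3]; ring
        linarith
    set η : ℝ := ε / (c * T) with hη
    have hcT : 0 < c * T := mul_pos hc0 hTpos
    have hη0 : 0 < η := div_pos hε hcT
    have hη1 : η ≤ 1 := by rw [hη, div_le_one hcT]; exact htriv
    have hηcT : η * (c * T) = ε := by rw [hη]; field_simp
    set Z : ℝ := 27 * (4:ℝ) ^ p * T ^ 2 * Real.log (4 * (n : ℝ) ^ 2) / ε ^ 2 with hZ
    have h4p : (0:ℝ) < (4:ℝ) ^ p := Real.rpow_pos_of_pos (by norm_num) _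
    have hZ0 : 0 ≤ Z := by rw [hZ]; positivity
    set N := ⌊Z⌋₊ + 1 with hN
    have hNZ : Z < (N : ℝ) := by
      rw [hN]; push_cast; exact Nat.lt_floor_add_one Z
    have hNpos : (0:ℝ) < N := lt_of_le_of_lt hZ0 hNZ
    have hcardE : (Fintype.card ((ι × ι) × Bool) : ℝ) = 2 * (n : ℝ) ^ 2 := by
      rw [Fintype.card_prod, Fintype.card_prod, Fintype.card_bool, ← hn]
      push_cast; ring
    have hNlt : 4 * 3 * Real.log (2 * (Fintype.card ((ι × ι) × Bool) : ℝ)) < N * η ^ 2 := by
      rw [hcardE]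
      have h1 : (2:ℝ) * (2 * (n : ℝ) ^ 2) = 4 * (n : ℝ) ^ 2 := by ring
      rw [h1]
      have h2 : Z * η ^ 2 = 12 * Real.log (4 * (n : ℝ) ^ 2) := by
        rw [hZ, hη, div_pow, mul_pow, hc2]
        field_simp
        ring
      have h3 : Z * η ^ 2 < N * η ^ 2 := mul_lt_mul_of_pos_right hNZ (by positivity)
      linarith
    obtain ⟨ω, hω⟩ := sampling (μ := μ) q g 3 η N hq0 hqint hq1 hg0 hgint hg1 hgK hη0 hη1 hNlt
    set w : Fin N → ℝ := fun l => 1 / (N * q (ω l)) with hw
    have hw0 : ∀ l, 0 ≤ w l := fun l =>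
      div_nonneg zero_le_one (mul_nonneg hNpos.le (hq0 _))
    refine ⟨N, fun i => WithLp.toLp P (fun l => (w l) ^ (1 / p) * x i (ω l)), ?_, ?_⟩
    · rw [hN]; push_cast
      linarith [Nat.floor_le hZ0]
    · intro i j
      have hnorm : ‖(WithLp.toLp P (fun l => (w l) ^ (1 / p) * x i (ω l)) :
          PiLp P (fun _ : Fin N => ℝ)) - WithLp.toLp P (fun l => (w l) ^ (1 / p) * x j (ω l))‖ ^ p
          = ∑ l, w l * h i j (ω l) := by
        rw [PiLp.norm_eq_sum hpos, ← Real.rpow_mul (Finset.sum_nonneg (fun i _ =>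
          Real.rpow_nonneg (norm_nonneg _) _)), one_div, inv_mul_cancel₀ hpos.ne', Real.rpow_one]
        refine Finset.sum_congr rfl (fun l _ => ?_)
        simp only [WithLp.ofLp_sub, Pi.sub_apply, ← hp, hh]
        rw [← mul_sub, Real.norm_eq_abs, abs_mul, Real.mul_rpow (abs_nonneg _) (abs_nonneg _),
          abs_of_nonneg (Real.rpow_nonneg (hw0 l) _), ← Real.rpow_mul (hw0 l),
          inv_mul_cancel₀ hpos.ne', Real.rpow_one]
      rw [hnorm]
      set A : ℝ := ∑ l, w l * h i j (ω l) with hA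
      have hDij : ‖x i - x j‖ ^ p = D i j := rfl
      rw [hDij]
      have hwh0 : ∀ l, 0 ≤ w l * h i j (ω l) := fun l => mul_nonneg (hw0 l) (hh0 i j _)
      have hd1 : 0 < D i j + θ * T := lt_of_lt_of_le hθT (hden1 i j)
      have hd2 : 0 < c * T - D i j := lt_of_lt_of_le hθT (hden2 i j)
      -- lower bound
      have hterm1 : ∀ l, g ((i, j), true) (ω l) / q (ω l) ≤
          ((N:ℝ) * (w l * h i j (ω l)) + θ * T) / (D i j + θ * T) := by
        intro l
        by_cases hql : q (ω l) = 0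
        · rw [hql, div_zero]
          exact div_nonneg (add_nonneg (mul_nonneg hNpos.le (hwh0 l)) hθT.le) hd1.le
        · have hGl : G (ω l) = q (ω l) * T := by
            simp only [hq]; field_simp
          simp only [hg, if_true, hw]
          rw [hGl]
          apply le_of_eq
          field_simp
      have hterm2 : ∀ l, g ((i, j), false) (ω l) / q (ω l) ≤
          (c * T - (N:ℝ) * (w l * h i j (ω l))) / (c * T - D i j) := by
        intro l
        by_cases hql : q (ω l) = 0
        · rw [hql, div_zero]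
          have hGl : G (ω l) = 0 := by
            have h1 : G (ω l) / T = 0 := hql
            rcases div_eq_zero_iff.mp h1 with h2 | h2
            · exact h2
            · exact absurd h2 hTpos.ne'
          have hhl : h i j (ω l) = 0 := by
            have h1 := hhG i j (ω l)
            rw [hGl, mul_zero] at h1
            exact le_antisymm h1 (hh0 i j _)
          rw [hhl, mul_zero, mul_zero, sub_zero]
          exact div_nonneg hcT.le hd2.le
        · have hGl : G (ω l) = q (ω l) * T := by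
            simp only [hq]; field_simp
          simp only [hg, Bool.false_eq_true, if_false, hw]
          rw [hGl]
          apply le_of_eq
          field_simp
      obtain ⟨hlow1, -⟩ := hω ((i, j), true)
      obtain ⟨hlow2, -⟩ := hω ((i, j), false)
      have hsum1 : ∑ l, g ((i, j), true) (ω l) / q (ω l) ≤
          ((N:ℝ) * A + N * (θ * T)) / (D i j + θ * T) := by
        refine le_trans (Finset.sum_le_sum (fun l _ => hterm1 l)) (le_of_eq ?_)
        have hs : ∑ l : Fin N, ((N:ℝ) * (w l * h i j (ω l)) + θ * T) =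
            (N:ℝ) * A + N * (θ * T) := by
          rw [Finset.sum_add_distrib, Finset.sum_const, Finset.card_univ, Fintype.card_fin,
            nsmul_eq_mul, hA, Finset.mul_sum]
        rw [← Finset.sum_div, hs]
      have hsum2 : ∑ l, g ((i, j), false) (ω l) / q (ω l) ≤
          ((N:ℝ) * (c * T) - N * A) / (c * T - D i j) := by
        refine le_trans (Finset.sum_le_sum (fun l _ => hterm2 l)) (le_of_eq ?_)
        have hs : ∑ l : Fin N, (c * T - (N:ℝ) * (w l * h i j (ω l))) =
            (N:ℝ) * (c * T) - N * A := by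
          rw [Finset.sum_sub_distrib, Finset.sum_const, Finset.card_univ, Fintype.card_fin,
            nsmul_eq_mul, hA, Finset.mul_sum]
        rw [← Finset.sum_div, hs]
      have hA1 : (1 - η) * (D i j + θ * T) ≤ A + θ * T := by
        have h1 := le_trans hlow1 hsum1
        rw [le_div_iff₀ hd1] at h1
        have h2 : (N:ℝ) * ((1 - η) * (D i j + θ * T)) ≤ N * (A + θ * T) := by linarith
        exact le_of_mul_le_mul_left h2 hNpos
      have hA2 : (1 - η) * (c * T - D i j) ≤ c * T - A := by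
        have h1 := le_trans hlow2 hsum2
        rw [le_div_iff₀ hd2] at h1
        have h2 : (N:ℝ) * ((1 - η) * (c * T - D i j)) ≤ N * (c * T - A) := by linarith
        exact le_of_mul_le_mul_left h2 hNpos
      have hDc : D i j + θ * T ≤ c * T := by
        have := hDT i j
        rw [hc]; linarith
      have hDc' : c * T - D i j ≤ c * T := by linarith [hD0 i j]
      rw [abs_le]
      constructor
      · -- A ≥ D - η (D + θT) ≥ D - ε
        have h1 : η * (D i j + θ * T) ≤ η * (c * T) := mul_le_mul_of_nonneg_left hDc hη0.le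
        have e1 : (1 - η) * (D i j + θ * T) = (D i j + θ * T) - η * (D i j + θ * T) := by ring
        linarith
      · have h1 : η * (c * T - D i j) ≤ η * (c * T) := mul_le_mul_of_nonneg_left hDc' hη0.le
        have e1 : (1 - η) * (c * T - D i j) = (c * T - D i j) - η * (c * T - D i j) := by ring
        linarith

/-- Additive-error dimension reduction (`ε`-isometric) for `n` functions in `L_p` whose
pointwise maximum has `L_p` norm at most `K`: dimension at most
`112 * (2K)^(2p) * log n / ε^2`. -/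
theorem additive_jl (P : ENNReal) [hP1' : Fact (1 ≤ P)] (hP : P ≠ ⊤) (K ε : ℝ) (hK : 0 < K)
    (hε : 0 < ε) {Ω : Type u} [MeasurableSpace Ω] (μ : Measure Ω) (n : ℕ)
    (x : Fin n → Lp ℝ P μ)
    (hx : ∫ ω, (⨆ i, |x i ω|) ^ P.toReal ∂μ ≤ K ^ P.toReal) :
    ∃ (d : ℕ) (y : Fin n → PiLp P (fun _ : Fin d => ℝ)),
      (d : ℝ) ≤ 112 * (2 * K) ^ (2 * P.toReal) * Real.log n / ε ^ 2 ∧
      ∀ i j, |‖y i - y j‖ ^ P.toReal - ‖x i - x j‖ ^ P.toReal| ≤ ε := by
  classical
  have hP0 : P ≠ 0 := (lt_of_lt_of_le zero_lt_one hP1'.out).ne'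
  have hpos : 0 < P.toReal := ENNReal.toReal_pos hP0 hP
  set p := P.toReal with hp
  have h2K : 0 < 2 * K := by linarith
  have h2Kp : 0 < (2 * K) ^ p := Real.rpow_pos_of_pos h2K _
  have h2K2p : (2 * K) ^ (2 * p) = ((2 * K) ^ p) ^ 2 := by
    rw [mul_comm 2 p, Real.rpow_mul h2K.le, Real.rpow_two]
  have hlogn : 0 ≤ Real.log (n : ℝ) := Real.log_natCast_nonneg n
  have hbound0 : 0 ≤ 112 * (2 * K) ^ (2 * p) * Real.log n / ε ^ 2 := by
    rw [h2K2p]; positivity
  set G : Ω → ℝ := fun ω => (⨆ i, |x i ω|) ^ p with hG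
  have hsup0 : ∀ ω, 0 ≤ ⨆ i, |x i ω| := fun ω => Real.iSup_nonneg (fun i => abs_nonneg _)
  have hG0 : ∀ ω, 0 ≤ G ω := fun ω => Real.rpow_nonneg (hsup0 ω) _
  have hGx : ∀ i ω, |x i ω| ^ p ≤ G ω := by
    intro i ω
    exact Real.rpow_le_rpow (abs_nonneg _)
      (le_ciSup (f := fun i => |x i ω|) (Set.finite_range _).bddAbove i) hpos.le
  have hxi_int : ∀ i, Integrable (fun ω => |x i ω| ^ p) μ := by
    intro i
    have h1 := (Lp.memLp (x i)).integrable_norm_rpow hP0 hP
    simpa [Real.norm_eq_abs] using h1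
  have hGint : Integrable G μ := by
    have hsum : Integrable (fun ω => ∑ i, |x i ω| ^ p) μ :=
      integrable_finsetSum _ (fun i _ => hxi_int i)
    have hmeas : Measurable G := by
      have h1 : ∀ i, Measurable (fun ω => |x i ω|) := fun i =>
        (Lp.stronglyMeasurable (x i)).measurable.abs
      exact (Measurable.iSup h1).pow_const p
    refine hsum.mono' hmeas.aestronglyMeasurable (Filter.Eventually.of_forall (fun ω => ?_))
    rw [Real.norm_of_nonneg (hG0 ω)]
    rcases isEmpty_or_nonempty (Fin n) with hemp | hne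
    · simp only [hG, Real.iSup_of_isEmpty, Real.zero_rpow hpos.ne']
      exact Finset.sum_nonneg (fun i _ => Real.rpow_nonneg (abs_nonneg _) _)
    · obtain ⟨i0, hi0⟩ := exists_eq_ciSup_of_finite (f := fun i => |x i ω|)
      simp only [hG]
      rw [← hi0]
      exact Finset.single_le_sum (f := fun i => |x i ω| ^ p)
        (fun i _ => Real.rpow_nonneg (abs_nonneg _) _) (Finset.mem_univ i0)
  set T := ∫ ω, G ω ∂μ with hT
  have hT0 : 0 ≤ T := integral_nonneg hG0
  have hTK : T ≤ K ^ p := hx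
  have hKp : 0 < K ^ p := Real.rpow_pos_of_pos hK _
  have hDle : ∀ i j, ‖x i - x j‖ ^ p ≤ (2 * K) ^ p := by
    intro i j
    have h1 := norm_sub_rpow_le_envelope hP (x i) (x j) G hGint (hGx i) (hGx j)
    rw [Real.mul_rpow (by norm_num) hK.le]
    have h2 : (2:ℝ) ^ p * T ≤ 2 ^ p * K ^ p :=
      mul_le_mul_of_nonneg_left hTK (Real.rpow_nonneg (by norm_num) _)
    exact le_trans h1 h2
  by_cases hsmall : (2 * K) ^ p ≤ ε ∨ n < 2
  · refine ⟨0, fun _ => 0, ?_, ?_⟩
    · simp only [Nat.cast_zero]; exact hbound0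
    · intro i j
      simp only [sub_self, norm_zero, Real.zero_rpow hpos.ne', zero_sub, abs_neg]
      rw [abs_of_nonneg (Real.rpow_nonneg (norm_nonneg _) _)]
      rcases hsmall with h1 | h1
      · exact le_trans (hDle i j) h1
      · have hij : i = j := by
          apply Fin.ext
          have := i.2
          have := j.2
          omega
        rw [hij, sub_self, norm_zero, Real.zero_rpow hpos.ne']
        exact hε.le
  · rw [not_or, not_le, not_lt] at hsmall
    obtain ⟨hbig, hn2⟩ := hsmall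
    obtain ⟨d, y, hd, hy⟩ := additive_core hP x G hG0 hGint hGx ε hε
    refine ⟨d, y, ?_, hy⟩
    rw [Fintype.card_fin] at hd
    have hn2' : (2:ℝ) ≤ n := by exact_mod_cast hn2
    have hlog2 : (0.6931471803 : ℝ) < Real.log 2 := Real.log_two_gt_d9
    have hlogn2 : Real.log 2 ≤ Real.log n := Real.log_le_log (by norm_num) hn2'
    have hlog4 : Real.log (4 * (n : ℝ) ^ 2) ≤ 4 * Real.log n := by
      have h1 : 4 * (n : ℝ) ^ 2 ≤ (n : ℝ) ^ 4 := by
        have h0 : (0:ℝ) ≤ (n:ℝ) ^ 2 - 4 := by nlinarith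
        nlinarith [mul_nonneg (sq_nonneg (n:ℝ)) h0]
      have h2 : Real.log (4 * (n : ℝ) ^ 2) ≤ Real.log ((n : ℝ) ^ 4) :=
        Real.log_le_log (by positivity) h1
      rw [Real.log_pow] at h2
      push_cast at h2
      exact h2
    have hlog40 : 0 ≤ Real.log (4 * (n : ℝ) ^ 2) := Real.log_nonneg (by nlinarith)
    have h4pT : (4:ℝ) ^ p * T ^ 2 ≤ ((2 * K) ^ p) ^ 2 := by
      have h1 : (4:ℝ) ^ p = ((2:ℝ) ^ p) ^ 2 := by
        rw [← Real.rpow_natCast, ← Real.rpow_mul (by norm_num), mul_comm,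
          Real.rpow_mul (by norm_num)]
        norm_num
      rw [h1, Real.mul_rpow (by norm_num) hK.le, mul_pow]
      have h2 : T ^ 2 ≤ (K ^ p) ^ 2 := pow_le_pow_left₀ hT0 hTK 2
      exact mul_le_mul_of_nonneg_left h2 (by positivity)
    have hε2 : 0 < ε ^ 2 := by positivity
    set B : ℝ := ((2 * K) ^ p) ^ 2 with hB
    have hB0 : 0 < B := by rw [hB]; positivity
    have hBε : ε ^ 2 < B := by
      rw [hB]; exact pow_lt_pow_left₀ hbig hε.le (by norm_num)
    have hmain : 27 * (4:ℝ) ^ p * T ^ 2 * Real.log (4 * (n : ℝ) ^ 2) / ε ^ 2 ≤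
        108 * B * Real.log n / ε ^ 2 := by
      apply div_le_div_of_nonneg_right _ hε2.le
      have h1 : (4:ℝ) ^ p * T ^ 2 * Real.log (4 * (n : ℝ) ^ 2) ≤ B * (4 * Real.log n) :=
        mul_le_mul h4pT hlog4 hlog40 hB0.le
      nlinarith
    have hone : (1:ℝ) ≤ 4 * B * Real.log n / ε ^ 2 := by
      rw [le_div_iff₀ hε2]
      have h1 : (1:ℝ) ≤ 4 * Real.log n := by linarith
      nlinarith
    rw [h2K2p]
    calc (d : ℝ) ≤ 27 * (4:ℝ) ^ p * T ^ 2 * Real.log (4 * (n : ℝ) ^ 2) / ε ^ 2 + 1 := hd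
      _ ≤ 108 * B * Real.log n / ε ^ 2 + 4 * B * Real.log n / ε ^ 2 := add_le_add hmain hone
      _ = 112 * B * Real.log n / ε ^ 2 := by ring

end Vale.Agent.H67
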