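import Mathlib
import Vale.Agent.H80.ERem.Defs

/-!
# Cleaning step for the pattern `[[1, 0], [0, 0]]`: robust skipped-ancestor sets

`exists_trs`: deleting at most `|R|^2 n / K` columns makes the robustness condition `TRS` hold
at every level `i ∈ R` (potential argument: every violation of `TRS` lets us delete a set `D`
of columns while the potential drops by more than `K |D|`).
-/

namespace Vale.Agent.H80.ERem

open Finset

open scoped Classical

variable {n : ℕ}

/-- the `k` largest elements of a finite set of columns -/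
theorem trs_exists_top {A : Finset (Fin n)} :
    ∀ (k : ℕ), k ≤ A.card → ∃ D ⊆ A, D.card = k ∧ ∀ d ∈ D, ∀ x ∈ A, x ∉ D → x < d := by
  intro k
  induction k with
  | zero =>
    intro _
    exact ⟨∅, empty_subset _, card_empty, fun d hd => absurd hd (notMem_empty d)⟩
  | succ k ih =>
    intro hk
    obtain ⟨D, hDA, hDc, hup⟩ := ih (by omega)
    have hne : (A \ D).Nonempty := by
      rw [← card_pos, card_sdiff_of_subset hDA]; omega
    obtain ⟨m, hm, hmax⟩ := exists_max_image (A \ D) id hne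
    rw [mem_sdiff] at hm
    refine ⟨insert m D, ?_, ?_, ?_⟩
    · intro x hx
      rcases mem_insert.mp hx with h | h
      · rw [h]; exact hm.1
      · exact hDA h
    · rw [card_insert_of_notMem hm.2, hDc]
    · intro d hd x hxA hxD
      rw [mem_insert, not_or] at hxD
      rcases mem_insert.mp hd with h | h
      · have h1 : x ≤ m := hmax x (mem_sdiff.mpr ⟨hxA, hxD.2⟩)
        rw [h]
        exact lt_of_le_of_ne h1 hxD.1
      · exact hup d h x hxA hxD.2

theorem trs_dir_mono {Zf1 Zf2 : Fin n → Finset (Fin n)} {S : Finset (Fin n)}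
    (h : ∀ r, Zf1 r ⊆ Zf2 r) {y x : Fin n} (hd : Dir Zf1 S y x) : Dir Zf2 S y x := by
  obtain ⟨h1, r, hr, hy, hx⟩ := hd
  exact ⟨h1, r, hr, h r hy, h r hx⟩

theorem trs_anc_mono {Zf1 Zf2 : Fin n → Finset (Fin n)} {S : Finset (Fin n)}
    (h : ∀ r, Zf1 r ⊆ Zf2 r) {y x : Fin n} (ha : Anc Zf1 S y x) : Anc Zf2 S y x := by
  refine Relation.ReflTransGen.mono ?_ _ _ ha
  intro u v hd
  exact trs_dir_mono h hd

theorem trs_iset_mono {Zf1 Zf2 : Fin n → Finset (Fin n)} {S : Finset (Fin n)}
    (h : ∀ r, Zf1 r ⊆ Zf2 r) (a : Fin n) : Iset Zf1 S a ⊆ Iset Zf2 S a := by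
  intro x hx
  rw [mem_Iset] at hx ⊢
  obtain ⟨hxa, b, hb, hba, hxb⟩ := hx
  exact ⟨h a hxa, b, hb, hba, h b hxb⟩

/-- a skipped ancestor lies strictly below some element of `Iset` -/
theorem trs_sk_lt {Zf : Fin n → Finset (Fin n)} {S : Finset (Fin n)} {a v : Fin n}
    (hv : v ∈ Sk Zf S a) : ∃ x ∈ Iset Zf S a, v < x := by
  obtain ⟨hva, x, hx, hanc⟩ := mem_Sk.mp hv
  refine ⟨x, hx, lt_of_le_of_ne hanc.le ?_⟩
  intro hvx
  rw [hvx] at hva
  exact hva (mem_Iset.mp hx).1

/-- deleting columns can only shrink the sets of skipped ancestors -/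
theorem trs_sk_mono (Zf : Fin n → Finset (Fin n)) {G1 G : Finset (Fin n)} (hG : G1 ⊆ G)
    (S : Finset (Fin n)) (b : Fin n) :
    Sk (fun r => Zf r ∩ G1) S b ⊆ Sk (fun r => Zf r ∩ G) S b := by
  have hmono : ∀ r, (fun r => Zf r ∩ G1) r ⊆ (fun r => Zf r ∩ G) r :=
    fun r => inter_subset_inter_left hG
  intro v hv
  obtain ⟨hvb, x, hx, hanc⟩ := mem_Sk.mp hv
  have hxb : x ∈ Zf b ∩ G1 := (mem_Iset.mp hx).1
  have hne : v ≠ x := by
    intro hvx
    rw [hvx] at hvb
    exact hvb hxb
  have hvG1 : v ∈ G1 := by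
    rcases Relation.ReflTransGen.cases_head hanc with h | ⟨w, hw, _⟩
    · exact absurd h hne
    · obtain ⟨_, r, _, hvr, _⟩ := hw
      exact (mem_inter.mp hvr).2
  refine mem_Sk.mpr ⟨?_, x, trs_iset_mono hmono b hx, trs_anc_mono hmono hanc⟩
  intro hv'
  exact hvb (mem_inter.mpr ⟨(mem_inter.mp hv').1, hvG1⟩)

/-- the potential: the total number of skipped ancestors over all levels and rows -/
noncomputable def trsPhi (Zf : Fin n → Finset (Fin n)) (R G : Finset (Fin n)) : ℕ :=
  ∑ p ∈ R ×ˢ R, (Sk (fun r => Zf r ∩ G) (R.filter fun r => p.1 ≤ r) p.2).card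

theorem trs_sum_add_le {ι : Type*} (P : Finset ι) (f1 f : ι → ℕ) (g : ℕ) {p0 : ι} (hp0 : p0 ∈ P)
    (hle : ∀ p ∈ P, f1 p ≤ f p) (h0 : f1 p0 + g ≤ f p0) :
    (∑ p ∈ P, f1 p) + g ≤ ∑ p ∈ P, f p := by
  rw [← add_sum_erase P f1 hp0, ← add_sum_erase P f hp0]
  have h1 : ∑ p ∈ P.erase p0, f1 p ≤ ∑ p ∈ P.erase p0, f p :=
    sum_le_sum (fun p hp => hle p (mem_of_mem_erase hp))
  omega

/-- one step: a violation of `TRS` lets us delete a nonempty set of columns while the potential
drops by at least `K` times the number of deleted columns -/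
theorem trs_step (Zf : Fin n → Finset (Fin n)) (R : Finset (Fin n)) (K : ℕ) (G : Finset (Fin n))
    (h : ¬ ∀ i ∈ R, TRS (fun r => Zf r ∩ G) (R.filter fun r => i ≤ r) K) :
    ∃ G1, G1 ⊂ G ∧ trsPhi Zf R G1 + K * (G \ G1).card ≤ trsPhi Zf R G := by
  push Not at h
  obtain ⟨i, hi, hT⟩ := h
  unfold TRS at hT
  push Not at hT
  obtain ⟨a, ha, c, hc⟩ := hT
  have hBne : ((Sk (fun r => Zf r ∩ G) (R.filter fun r => i ≤ r) a).filter
      fun v => cnt (fun r => Zf r ∩ G) (R.filter fun r => i ≤ r) a v ≤ c).Nonempty := by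
    rw [← card_pos]; omega
  obtain ⟨v0, hv0⟩ := hBne
  rw [mem_filter] at hv0
  obtain ⟨x0, hx0, hvx0⟩ := trs_sk_lt hv0.1
  have hcnt0 : 1 ≤ cnt (fun r => Zf r ∩ G) (R.filter fun r => i ≤ r) a v0 := by
    unfold cnt
    rw [Nat.succ_le_iff, card_pos]
    exact ⟨x0, mem_filter.mpr ⟨hx0, hvx0⟩⟩
  have hc1 : 1 ≤ c := le_trans hcnt0 hv0.2
  have hI1 : 1 ≤ (Iset (fun r => Zf r ∩ G) (R.filter fun r => i ≤ r) a).card := by
    rw [Nat.succ_le_iff, card_pos]
    exact ⟨x0, hx0⟩
  obtain ⟨D, hDI, hDc, hup⟩ := trs_exists_top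
    (A := Iset (fun r => Zf r ∩ G) (R.filter fun r => i ≤ r) a)
    (min c (Iset (fun r => Zf r ∩ G) (R.filter fun r => i ≤ r) a).card) (min_le_right _ _)
  have hDG : D ⊆ G := fun d hd => (mem_inter.mp (mem_Iset.mp (hDI hd)).1).2
  have hDpos : 1 ≤ D.card := by
    rw [hDc]; exact le_min hc1 hI1
  refine ⟨G \ D, ?_, ?_⟩
  · refine ⟨sdiff_subset, ?_⟩
    intro hsub
    obtain ⟨d, hd⟩ := card_pos.mp hDpos
    exact (mem_sdiff.mp (hsub (hDG hd))).2 hd
  · have hGD : G \ (G \ D) = D := by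
      ext x
      simp only [mem_sdiff, not_and, not_not]
      constructor
      · rintro ⟨h1, h2⟩; exact h2 h1
      · intro hx; exact ⟨hDG hx, fun _ => hx⟩
    rw [hGD]
    have hkey : (Sk (fun r => Zf r ∩ (G \ D)) (R.filter fun r => i ≤ r) a).card +
        ((Sk (fun r => Zf r ∩ G) (R.filter fun r => i ≤ r) a).filter
          fun v => cnt (fun r => Zf r ∩ G) (R.filter fun r => i ≤ r) a v ≤ c).card ≤
        (Sk (fun r => Zf r ∩ G) (R.filter fun r => i ≤ r) a).card := by
      have hsub : Sk (fun r => Zf r ∩ (G \ D)) (R.filter fun r => i ≤ r) a ⊆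
          Sk (fun r => Zf r ∩ G) (R.filter fun r => i ≤ r) a \
            ((Sk (fun r => Zf r ∩ G) (R.filter fun r => i ≤ r) a).filter
              fun v => cnt (fun r => Zf r ∩ G) (R.filter fun r => i ≤ r) a v ≤ c) := by
        intro v hv
        have hvG : v ∈ Sk (fun r => Zf r ∩ G) (R.filter fun r => i ≤ r) a :=
          trs_sk_mono Zf sdiff_subset _ a hv
        refine mem_sdiff.mpr ⟨hvG, ?_⟩
        intro hvB
        rw [mem_filter] at hvB
        obtain ⟨x, hx, hvx⟩ := trs_sk_lt hv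
        have hxI : x ∈ Iset (fun r => Zf r ∩ G) (R.filter fun r => i ≤ r) a :=
          trs_iset_mono (Zf1 := fun r => Zf r ∩ (G \ D)) (Zf2 := fun r => Zf r ∩ G)
            (fun r => inter_subset_inter_left sdiff_subset) a hx
        have hxD : x ∉ D := (mem_sdiff.mp (mem_inter.mp (mem_Iset.mp hx).1).2).2
        have hlt : D.card < (Iset (fun r => Zf r ∩ G) (R.filter fun r => i ≤ r) a).card :=
          card_lt_card ⟨hDI, fun hID => hxD (hID hxI)⟩
        have hDc' : D.card = c := by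
          rw [hDc] at hlt ⊢
          rcases min_cases c (Iset (fun r => Zf r ∩ G) (R.filter fun r => i ≤ r) a).card with
            ⟨h1, _⟩ | ⟨h1, _⟩
          · exact h1
          · omega
        have hins : insert x D ⊆
            (Iset (fun r => Zf r ∩ G) (R.filter fun r => i ≤ r) a).filter fun y => v < y := by
          intro y hy
          rcases mem_insert.mp hy with h | h
          · rw [h]; exact mem_filter.mpr ⟨hxI, hvx⟩
          · exact mem_filter.mpr ⟨hDI h, lt_trans hvx (hup y h x hxI hxD)⟩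
        have hcard : c + 1 ≤ cnt (fun r => Zf r ∩ G) (R.filter fun r => i ≤ r) a v := by
          unfold cnt
          calc c + 1 = (insert x D).card := by rw [card_insert_of_notMem hxD, hDc']
            _ ≤ _ := card_le_card hins
        omega
      have h1 := card_le_card hsub
      have h2 := card_sdiff_add_card_eq_card (filter_subset
        (fun v => cnt (fun r => Zf r ∩ G) (R.filter fun r => i ≤ r) a v ≤ c)
        (Sk (fun r => Zf r ∩ G) (R.filter fun r => i ≤ r) a))
      omega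
    have hDle : K * D.card ≤ K * c :=
      Nat.mul_le_mul_left K (by rw [hDc]; exact min_le_left _ _)
    have hsum : trsPhi Zf R (G \ D) +
        ((Sk (fun r => Zf r ∩ G) (R.filter fun r => i ≤ r) a).filter
          fun v => cnt (fun r => Zf r ∩ G) (R.filter fun r => i ≤ r) a v ≤ c).card ≤
        trsPhi Zf R G := by
      unfold trsPhi
      refine trs_sum_add_le (R ×ˢ R) _ _ _ (p0 := (i, a)) ?_ ?_ ?_
      · exact mem_product.mpr ⟨hi, (mem_filter.mp ha).1⟩
      · intro p _
        exact card_le_card (trs_sk_mono Zf sdiff_subset _ _)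
      · exact hkey
    omega

theorem trs_main (Zf : Fin n → Finset (Fin n)) (R : Finset (Fin n)) (K : ℕ) :
    ∀ G : Finset (Fin n), ∃ G' ⊆ G,
      (∀ i ∈ R, TRS (fun r => Zf r ∩ G') (R.filter fun r => i ≤ r) K) ∧
      K * (G \ G').card ≤ trsPhi Zf R G := by
  intro G
  induction G using Finset.strongInduction with
  | H G ih =>
    by_cases h : ∀ i ∈ R, TRS (fun r => Zf r ∩ G) (R.filter fun r => i ≤ r) K
    · exact ⟨G, Subset.refl G, h, by simp⟩
    · obtain ⟨G1, hG1, hphi⟩ := trs_step Zf R K G h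
      obtain ⟨G', hG', htrs, hK⟩ := ih G1 hG1
      refine ⟨G', hG'.trans hG1.subset, htrs, ?_⟩
      have hsub : G \ G' ⊆ (G \ G1) ∪ (G1 \ G') := by
        intro x hx
        rw [mem_sdiff] at hx
        rw [mem_union, mem_sdiff, mem_sdiff]
        by_cases hx1 : x ∈ G1
        · exact Or.inr ⟨hx1, hx.2⟩
        · exact Or.inl ⟨hx.1, hx1⟩
      have hcard : (G \ G').card ≤ (G \ G1).card + (G1 \ G').card :=
        (card_le_card hsub).trans (card_union_le _ _)
      calc K * (G \ G').card ≤ K * ((G \ G1).card + (G1 \ G').card) :=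
            Nat.mul_le_mul_left K hcard
        _ = K * (G \ G1).card + K * (G1 \ G').card := by ring
        _ ≤ trsPhi Zf R G := by omega

/-- deleting at most `|R|^2 n / K` columns makes `TRS` hold at every level -/
theorem exists_trs {n : ℕ} (Zf : Fin n → Finset (Fin n)) (R : Finset (Fin n)) (K : ℕ) :
    ∃ G : Finset (Fin n), (∀ i ∈ R, TRS (fun r => Zf r ∩ G) (R.filter fun r => i ≤ r) K) ∧
      K * Gᶜ.card ≤ R.card ^ 2 * n := by
  obtain ⟨G, _, htrs, hK⟩ := trs_main Zf R K univ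
  refine ⟨G, htrs, ?_⟩
  rw [compl_eq_univ_sdiff]
  refine hK.trans ?_
  unfold trsPhi
  calc ∑ p ∈ R ×ˢ R, (Sk (fun r => Zf r ∩ univ) (R.filter fun r => p.1 ≤ r) p.2).card
      ≤ ∑ _p ∈ R ×ˢ R, n := sum_le_sum (fun p _ => by
          calc _ ≤ (univ : Finset (Fin n)).card := card_le_univ _
            _ = n := by simp)
    _ = R.card ^ 2 * n := by rw [sum_const, card_product, smul_eq_mul, sq]

end Vale.Agent.H80.ERem
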