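import Mathlib
import Vale.Agent.H67.LpEmbed

/-!
Energy form of the spanner domination, saving one factor of the stretch:
along a path with at most `l` hops whose edges are no longer than the pair they join,
the `p`-th power of a difference quotient is at most `l ^ (p - 1)` times the sum of the
`p`-th powers of the difference quotients of the edges.
-/

namespace Vale.Agent.H67

open MeasureTheory

universe u

theorem abs_sub_le_walk_sum {V : Type*} {G : SimpleGraph V} (t : V → ℝ) :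
    ∀ {a b : V} (p : G.Walk a b),
      |t a - t b| ≤ (p.darts.map (fun d => |t d.fst - t d.snd|)).sum := by
  intro a b p
  induction p with
  | nil => simp
  | @cons a c b h p ih =>
    simp only [SimpleGraph.Walk.darts_cons, List.map_cons, List.sum_cons]
    have h2 := abs_sub_le (t a) (t c) (t b)
    linarith

/-- Energy domination from hop-bounded light walks. -/
theorem energy_of_walks {α : Type*} [MetricSpace α] (X : Finset α)
    (E : Finset (Sym2 X)) (l : ℕ)
    (hE : ∀ u v : X, u ≠ v → ∃ p : (SimpleGraph.fromEdgeSet (E : Set (Sym2 X))).Walk u v,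
      p.length ≤ l ∧ ∀ d ∈ p.darts, dist (d.fst : α) (d.snd : α) ≤ dist (u : α) (v : α))
    (p : ℝ) (hp : 1 ≤ p) :
    ∃ H : Finset (α × α), H.card ≤ E.card ∧ ∀ (t : α → ℝ), ∀ u ∈ X, ∀ v ∈ X,
      |t u - t v| ^ p ≤ (l : ℝ) ^ (p - 1) * dist u v ^ p *
        ∑ h ∈ H, |t h.1 - t h.2| ^ p / dist h.1 h.2 ^ p := by
  classical
  have hp0 : 0 < p := by linarith
  let rep : Sym2 X → X × X := fun e => @Quot.out (X × X) (Sym2.Rel X) e
  have hrep : ∀ e : Sym2 X, s((rep e).1, (rep e).2) = e := fun e => Quot.out_eq e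
  let φ : Sym2 X → α × α := fun e => (((rep e).1 : α), ((rep e).2 : α))
  have hφinj : Function.Injective φ := by
    intro e e' h
    have h1 : ((rep e).1 : α) = ((rep e').1 : α) := congrArg Prod.fst h
    have h2 : ((rep e).2 : α) = ((rep e').2 : α) := congrArg Prod.snd h
    have h1' : (rep e).1 = (rep e').1 := Subtype.ext h1
    have h2' : (rep e).2 = (rep e').2 := Subtype.ext h2
    rw [← hrep e, ← hrep e', h1', h2']
  refine ⟨E.image φ, Finset.card_image_le, ?_⟩
  intro t u hu v hv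
  set f : α × α → ℝ := fun h => |t h.1 - t h.2| ^ p / dist h.1 h.2 ^ p with hf
  have hf0 : ∀ h, 0 ≤ f h := fun h =>
    div_nonneg (Real.rpow_nonneg (abs_nonneg _) _) (Real.rpow_nonneg dist_nonneg _)
  have hsum0 : 0 ≤ ∑ h ∈ E.image φ, f h := Finset.sum_nonneg (fun h _ => hf0 h)
  by_cases huv : u = v
  · subst huv
    simp only [sub_self, abs_zero, Real.zero_rpow hp0.ne']
    exact mul_nonneg (mul_nonneg (Real.rpow_nonneg (Nat.cast_nonneg _) _)
      (Real.rpow_nonneg dist_nonneg _)) hsum0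
  · set G := SimpleGraph.fromEdgeSet (E : Set (Sym2 X)) with hG
    obtain ⟨p0, hp0len, hp0light⟩ := hE ⟨u, hu⟩ ⟨v, hv⟩ (by simpa using huv)
    set pp := p0.bypass with hpp
    have hpath : pp.IsPath := p0.bypass_isPath
    have hlen : pp.length ≤ l := le_trans p0.length_bypass_le_length hp0len
    have hlight : ∀ d ∈ pp.darts, dist (d.fst : α) (d.snd : α) ≤ dist u v :=
      fun d hd => hp0light d (p0.darts_bypass_subset_darts hd)
    have hnodup : pp.darts.Nodup :=
      SimpleGraph.Walk.darts_nodup_of_support_nodup hpath.support_nodup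
    have hedges_nodup : pp.edges.Nodup := hpath.isTrail.edges_nodup
    set g : Sym2 X → ℝ := fun e => f (φ e) with hg
    -- orientation independence
    have hfg : ∀ d : G.Dart, f ((d.fst : α), (d.snd : α)) = g d.edge := by
      intro d
      have hout := hrep d.edge
      rcases hxy : rep d.edge with ⟨x, y⟩
      rw [hxy] at hout
      simp only at hout
      have h2 := Sym2.eq_iff.mp hout
      simp only [hg, φ, hxy, hf]
      rcases h2 with ⟨h3, h4⟩ | ⟨h3, h4⟩
      · rw [h3, h4]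
      · rw [h3, h4, abs_sub_comm, dist_comm]
    set q : G.Dart → ℝ := fun d => |t (d.fst : α) - t (d.snd : α)| /
      dist (d.fst : α) (d.snd : α) with hq
    have hq0 : ∀ d, 0 ≤ q d := fun d => div_nonneg (abs_nonneg _) dist_nonneg
    have hdpos : ∀ d : G.Dart, 0 < dist (d.fst : α) (d.snd : α) := by
      intro d
      have hne : d.fst ≠ d.snd := G.ne_of_adj d.adj
      exact dist_pos.mpr (fun h => hne (Subtype.ext h))
    have hqp : ∀ d : G.Dart, q d ^ p = g d.edge := by
      intro d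
      rw [← hfg d]
      simp only [hq, hf]
      rw [Real.div_rpow (abs_nonneg _) dist_nonneg]
    set S := pp.darts.toFinset with hS
    have hScard : S.card ≤ l := by
      rw [hS, List.toFinset_card_of_nodup hnodup, SimpleGraph.Walk.length_darts]
      exact hlen
    have htele : |t u - t v| ≤ dist u v * ∑ d ∈ S, q d := by
      have h1 := abs_sub_le_walk_sum (fun x : X => t (x : α)) pp
      have h2 : (pp.darts.map (fun d => |t (d.fst : α) - t (d.snd : α)|)).sum =
          ∑ d ∈ S, |t (d.fst : α) - t (d.snd : α)| := by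
        rw [hS, List.sum_toFinset _ hnodup]
      rw [h2] at h1
      rw [Finset.mul_sum]
      refine le_trans h1 (Finset.sum_le_sum (fun d hd => ?_))
      have hd' : d ∈ pp.darts := List.mem_toFinset.mp hd
      have h3 : |t (d.fst : α) - t (d.snd : α)| = dist (d.fst : α) (d.snd : α) * q d := by
        simp only [hq]
        field_simp [(hdpos d).ne']
      rw [h3]
      exact mul_le_mul_of_nonneg_right (hlight d hd') (hq0 d)
    have hpm : (∑ d ∈ S, q d) ^ p ≤ (l : ℝ) ^ (p - 1) * ∑ d ∈ S, q d ^ p := by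
      have h1 := Real.rpow_sum_le_const_mul_sum_rpow S q hp
      have h2 : ∀ d, |q d| = q d := fun d => abs_of_nonneg (hq0 d)
      simp only [h2] at h1
      have h3 : (S.card : ℝ) ^ (p - 1) ≤ (l : ℝ) ^ (p - 1) :=
        Real.rpow_le_rpow (Nat.cast_nonneg _) (by exact_mod_cast hScard) (by linarith)
      have h4 : 0 ≤ ∑ d ∈ S, q d ^ p :=
        Finset.sum_nonneg (fun d _ => Real.rpow_nonneg (hq0 d) _)
      exact le_trans h1 (mul_le_mul_of_nonneg_right h3 h4)
    have hedge_sum : ∑ d ∈ S, q d ^ p ≤ ∑ h ∈ E.image φ, f h := by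
      have h1 : ∑ d ∈ S, q d ^ p = (pp.edges.map g).sum := by
        rw [hS, List.sum_toFinset _ hnodup]
        simp only [SimpleGraph.Walk.edges, List.map_map]
        congr 1
        refine List.map_congr_left (fun d _ => ?_)
        simp only [Function.comp]
        exact hqp d
      have h2 : (pp.edges.map g).sum = ∑ e ∈ pp.edges.toFinset, g e := by
        rw [List.sum_toFinset _ hedges_nodup]
      have h3 : pp.edges.toFinset ⊆ E := by
        intro e he
        have he' : e ∈ pp.edges := List.mem_toFinset.mp he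
        have h4 := SimpleGraph.Walk.edges_subset_edgeSet pp he'
        rw [hG, SimpleGraph.edgeSet_fromEdgeSet] at h4
        exact Finset.mem_coe.mp h4.1
      have h5 : ∑ e ∈ E, g e = ∑ h ∈ E.image φ, f h := by
        rw [Finset.sum_image (fun a _ b _ hab => hφinj hab)]
      rw [h1, h2, ← h5]
      exact Finset.sum_le_sum_of_subset_of_nonneg h3 (fun e _ _ => hf0 _)
    have hsumq0 : 0 ≤ ∑ d ∈ S, q d := Finset.sum_nonneg (fun d _ => hq0 d)
    calc |t u - t v| ^ p ≤ (dist u v * ∑ d ∈ S, q d) ^ p :=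
          Real.rpow_le_rpow (abs_nonneg _) htele hp0.le
      _ = dist u v ^ p * (∑ d ∈ S, q d) ^ p := Real.mul_rpow dist_nonneg hsumq0
      _ ≤ dist u v ^ p * ((l : ℝ) ^ (p - 1) * ∑ d ∈ S, q d ^ p) :=
          mul_le_mul_of_nonneg_left hpm (Real.rpow_nonneg dist_nonneg _)
      _ ≤ dist u v ^ p * ((l : ℝ) ^ (p - 1) * ∑ h ∈ E.image φ, f h) := by
          apply mul_le_mul_of_nonneg_left _ (Real.rpow_nonneg dist_nonneg _)
          exact mul_le_mul_of_nonneg_left hedge_sum (Real.rpow_nonneg (Nat.cast_nonneg _) _)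
      _ = (l : ℝ) ^ (p - 1) * dist u v ^ p * ∑ h ∈ E.image φ, f h := by ring

variable {Ω : Type*} [MeasurableSpace Ω] {μ : Measure Ω} {P : ENNReal} [hP1 : Fact (1 ≤ P)]

/-- Coordinate sampling from an energy domination with constant `K0`. -/
theorem embed_coreK (hP : P ≠ ⊤) (X : Finset (Lp ℝ P μ)) (H : Finset (Lp ℝ P μ × Lp ℝ P μ))
    (K0 : ℝ) (hK0nn : 0 ≤ K0)
    (hdom : ∀ ω, ∀ u ∈ X, ∀ v ∈ X, |u ω - v ω| ^ P.toReal ≤ K0 * ‖u - v‖ ^ P.toReal *
      ∑ h ∈ H, |h.1 ω - h.2 ω| ^ P.toReal / ‖h.1 - h.2‖ ^ P.toReal)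
    (ε : ℝ) (hε : 0 < ε) (hε1 : ε ≤ 1) (N : ℕ)
    (hX : 2 ≤ X.card)
    (hN : 4 * (K0 * H.card) * Real.log (2 * (X.card : ℝ) ^ 2) < N * ε ^ 2) :
    ∃ (ω : Fin N → Ω) (w : Fin N → ℝ), (∀ l, 0 ≤ w l) ∧ ∀ u ∈ X, ∀ v ∈ X,
      (1 - ε) * ‖u - v‖ ^ P.toReal ≤ ∑ l, w l * |u (ω l) - v (ω l)| ^ P.toReal ∧
      ∑ l, w l * |u (ω l) - v (ω l)| ^ P.toReal ≤ (1 + ε) * ‖u - v‖ ^ P.toReal := by
  classical
  have hP0 : P ≠ 0 := (lt_of_lt_of_le zero_lt_one hP1.out).ne'
  have hpos : 0 < P.toReal := ENNReal.toReal_pos hP0 hP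
  set p := P.toReal with hp
  set G : Lp ℝ P μ × Lp ℝ P μ → Ω → ℝ := fun h ω => |h.1 ω - h.2 ω| ^ p with hG
  set I : Lp ℝ P μ × Lp ℝ P μ → ℝ := fun h => ‖h.1 - h.2‖ ^ p with hI
  have hGint : ∀ h, Integrable (G h) μ := fun h => integrable_diff hP h.1 h.2
  have hGI : ∀ h, ∫ ω, G h ω ∂μ = I h := fun h => integral_diff hP h.1 h.2
  have hG0 : ∀ h ω, 0 ≤ G h ω := fun h ω => Real.rpow_nonneg (abs_nonneg _) _
  have hI0 : ∀ h, 0 ≤ I h := fun h => Real.rpow_nonneg (norm_nonneg _) _
  have hIpos : ∀ h : Lp ℝ P μ × Lp ℝ P μ, h.1 ≠ h.2 → 0 < I h := fun h hne =>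
    Real.rpow_pos_of_pos (norm_pos_iff.mpr (sub_ne_zero.mpr hne)) _
  have hIdiag : ∀ h : Lp ℝ P μ × Lp ℝ P μ, h.1 = h.2 → I h = 0 := by
    intro h heq
    simp only [hI]
    rw [heq, sub_self, norm_zero, Real.zero_rpow hpos.ne']
  set c : ℝ := ((H.filter (fun h => h.1 ≠ h.2)).card : ℝ) with hc
  have hcsum : ∑ h ∈ H, I h / I h = c := by
    rw [hc, Finset.card_filter, Nat.cast_sum]
    refine Finset.sum_congr rfl (fun h _ => ?_)
    by_cases heq : h.1 = h.2
    · rw [hIdiag h heq]; simp [heq]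
    · rw [div_self (hIpos h heq).ne']; simp [heq]
  set T : Ω → ℝ := fun ω => ∑ h ∈ H, G h ω / I h with hT
  have hT0 : ∀ ω, 0 ≤ T ω := fun ω =>
    Finset.sum_nonneg (fun h _ => div_nonneg (hG0 h ω) (hI0 h))
  have hTint : Integrable T μ := integrable_finsetSum _ (fun h _ => (hGint h).div_const _)
  have hTI : ∫ ω, T ω ∂μ = c := by
    simp only [hT]
    rw [integral_finsetSum _ (fun h _ => (hGint h).div_const _), ← hcsum]
    refine Finset.sum_congr rfl (fun h _ => ?_)
    rw [integral_div, hGI]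
  obtain ⟨u0, hu0, v0, hv0, huv0⟩ := Finset.one_lt_card.mp (by omega : 1 < X.card)
  have hdomω : ∀ ω, ∀ u ∈ X, ∀ v ∈ X, G (u, v) ω ≤ K0 * I (u, v) * T ω :=
    fun ω u hu v hv => hdom ω u hu v hv
  have hcpos : 0 < c := by
    rcases eq_or_lt_of_le (by rw [hc]; positivity : (0:ℝ) ≤ c) with h0 | h0
    · exfalso
      have hT0' : T =ᵐ[μ] 0 := by
        have : ∫ ω, T ω ∂μ = 0 := by rw [hTI, ← h0]
        exact (integral_eq_zero_iff_of_nonneg hT0 hTint).mp this
      apply huv0
      apply Lp.ext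
      filter_upwards [hT0'] with ω hω
      have h1 := hdomω ω u0 hu0 v0 hv0
      have h2 : T ω = 0 := hω
      rw [h2, mul_zero] at h1
      have h3 : G (u0, v0) ω = 0 := le_antisymm h1 (hG0 _ ω)
      simp only [hG] at h3
      have h4 : |u0 ω - v0 ω| = 0 := by
        by_contra hne
        have : 0 < |u0 ω - v0 ω| ^ p :=
          Real.rpow_pos_of_pos (lt_of_le_of_ne (abs_nonneg _) (Ne.symm hne)) _
        linarith
      exact sub_eq_zero.mp (abs_eq_zero.mp h4)
    · exact h0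
  set q : Ω → ℝ := fun ω => T ω / c with hq
  have hq0 : ∀ ω, 0 ≤ q ω := fun ω => div_nonneg (hT0 ω) hcpos.le
  have hqint : Integrable q μ := hTint.div_const _
  have hq1 : ∫ ω, q ω ∂μ = 1 := by
    simp only [hq]
    rw [integral_div, hTI, div_self hcpos.ne']
  set g : X.offDiag → Ω → ℝ := fun e ω => G e.1 ω / I e.1 with hg
  have hemem : ∀ e : X.offDiag, e.1.1 ∈ X ∧ e.1.2 ∈ X ∧ e.1.1 ≠ e.1.2 :=
    fun e => Finset.mem_offDiag.mp e.2
  have hg0 : ∀ e ω, 0 ≤ g e ω := fun e ω => div_nonneg (hG0 _ ω) (hI0 _)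
  have hgint : ∀ e, Integrable (g e) μ := fun e => (hGint _).div_const _
  have hg1 : ∀ e, ∫ ω, g e ω ∂μ = 1 := by
    intro e
    simp only [hg]
    rw [integral_div, hGI, div_self (hIpos _ (hemem e).2.2).ne']
  set K : ℝ := K0 * c with hK
  have hgK : ∀ e ω, g e ω ≤ K * q ω := by
    intro e ω
    have h1 := hdomω ω e.1.1 (hemem e).1 e.1.2 (hemem e).2.1
    have h2 : K * q ω = K0 * T ω := by
      simp only [hK, hq]; field_simp
    rw [h2]
    simp only [hg]
    rw [div_le_iff₀ (hIpos _ (hemem e).2.2)]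
    calc G e.1 ω ≤ K0 * I (e.1.1, e.1.2) * T ω := h1
      _ = K0 * T ω * I e.1 := by ring
  have hcardE : Fintype.card X.offDiag = X.card * X.card - X.card := by
    rw [Fintype.card_coe, Finset.offDiag_card]
  have hn2 : (2:ℝ) ≤ X.card := by exact_mod_cast hX
  have hEpos : 1 ≤ Fintype.card X.offDiag := by
    rw [hcardE]
    have : X.card * 2 ≤ X.card * X.card := Nat.mul_le_mul_left _ hX
    omega
  have hEle : (Fintype.card X.offDiag : ℝ) ≤ (X.card : ℝ) ^ 2 := by
    have : Fintype.card X.offDiag ≤ X.card ^ 2 := by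
      rw [hcardE, sq]; exact Nat.sub_le _ _
    exact_mod_cast this
  have hEpos' : (1:ℝ) ≤ Fintype.card X.offDiag := by exact_mod_cast hEpos
  have hlog1 : 0 ≤ Real.log (2 * (Fintype.card X.offDiag : ℝ)) :=
    Real.log_nonneg (by linarith)
  have hlog2 : Real.log (2 * (Fintype.card X.offDiag : ℝ)) ≤
      Real.log (2 * (X.card : ℝ) ^ 2) :=
    Real.log_le_log (by linarith) (by linarith)
  have hcle : c ≤ H.card := by
    rw [hc]; exact_mod_cast Finset.card_filter_le _ _
  have hKle : K ≤ K0 * H.card := mul_le_mul_of_nonneg_left hcle hK0nn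
  have hK0 : 0 ≤ K0 * (H.card : ℝ) := mul_nonneg hK0nn (Nat.cast_nonneg _)
  have hN' : 4 * K * Real.log (2 * (Fintype.card X.offDiag : ℝ)) < N * ε ^ 2 := by
    have h1 : K * Real.log (2 * (Fintype.card X.offDiag : ℝ)) ≤
        K0 * H.card * Real.log (2 * (X.card : ℝ) ^ 2) :=
      mul_le_mul hKle hlog2 hlog1 hK0
    linarith
  obtain ⟨ω, hω⟩ := sampling (μ := μ) q g K ε N hq0 hqint hq1 hg0 hgint hg1 hgK hε hε1 hN'
  have hNpos : (0:ℝ) < N := by
    have h1 : 0 ≤ K0 * H.card * Real.log (2 * (X.card : ℝ) ^ 2) :=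
      mul_nonneg hK0 (le_trans hlog1 hlog2)
    have h2 : (0:ℝ) < N * ε ^ 2 := by linarith
    rcases eq_or_lt_of_le (Nat.cast_nonneg N : (0:ℝ) ≤ N) with h | h
    · rw [← h, zero_mul] at h2; exact absurd h2 (lt_irrefl 0)
    · exact h
  refine ⟨ω, fun l => 1 / (N * q (ω l)), fun l => ?_, ?_⟩
  · exact div_nonneg zero_le_one (mul_nonneg hNpos.le (hq0 _))
  · intro u hu v hv
    by_cases huv : u = v
    · subst huv
      simp [Real.zero_rpow hpos.ne']
    · have hmem : (u, v) ∈ X.offDiag := Finset.mem_offDiag.mpr ⟨hu, hv, huv⟩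
      have hIuv : 0 < I (u, v) := hIpos (u, v) huv
      obtain ⟨h1, h2⟩ := hω ⟨(u, v), hmem⟩
      have hsum : ∑ l, 1 / (N * q (ω l)) * |u (ω l) - v (ω l)| ^ p =
          I (u, v) / N * ∑ l, g ⟨(u, v), hmem⟩ (ω l) / q (ω l) := by
        rw [Finset.mul_sum]
        refine Finset.sum_congr rfl (fun l _ => ?_)
        simp only [hg, hG]
        by_cases hq0' : q (ω l) = 0
        · simp [hq0']
        · field_simp
      have hfac : 0 ≤ I (u, v) / N := div_nonneg hIuv.le hNpos.le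
      have hI' : I (u, v) = ‖u - v‖ ^ p := rfl
      rw [hsum, ← hI']
      constructor
      · calc (1 - ε) * I (u, v) = I (u, v) / N * ((1 - ε) * N) := by field_simp
          _ ≤ I (u, v) / N * ∑ l, g ⟨(u, v), hmem⟩ (ω l) / q (ω l) :=
              mul_le_mul_of_nonneg_left h1 hfac
      · calc I (u, v) / N * ∑ l, g ⟨(u, v), hmem⟩ (ω l) / q (ω l)
            ≤ I (u, v) / N * ((1 + ε) * N) := mul_le_mul_of_nonneg_left h2 hfac
          _ = (1 + ε) * I (u, v) := by field_simp

end Vale.Agent.H67
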