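import Mathlib
import Vale.Agent.H51.P249.NLogN

/-!
Explicit `(1 + ε)` form of the `n log n` dimension reduction for finite subsets of `L_p`:
`d ≤ 10000 * 1600 ^ p * n * log n / ε ^ 2`.

Built on `Vale.Agent.H51.P249.exists_dominating` (linear-cost weighted domination of every
finite metric space) and `Vale.Agent.H51.P249.main_weighted` (weighted importance sampling).
-/

namespace Vale.Agent.H67

open MeasureTheory
open Vale.Agent.H51.P249

universe u

theorem explicit_nlogn (p : ENNReal) [Fact (1 ≤ p)] (hp : p ≠ ⊤) (ε : ℝ) (hε : 0 < ε)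
    (hε1 : ε ≤ 1) {α : Type u} [MeasurableSpace α] (μ : Measure α) (X : Finset (Lp ℝ p μ)) :
    ∃ (d : ℕ) (f : Lp ℝ p μ → PiLp p (fun _ : Fin d => ℝ)) (s : ℝ),
      (d : ℝ) ≤ 10000 * (1600 : ℝ) ^ p.toReal * X.card * Real.log X.card / ε ^ 2 ∧ 0 < s ∧
      ∀ x ∈ X, ∀ y ∈ X, s * ‖x - y‖ ≤ ‖f x - f y‖ ∧ ‖f x - f y‖ ≤ (1 + ε) * s * ‖x - y‖ := by
  classical
  have hp1 : 1 ≤ p := Fact.out
  have hr1 : 1 ≤ p.toReal := by
    have := ENNReal.toReal_mono hp hp1
    simpa using this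
  set r := p.toReal with hr
  have hr0 : 0 < r := by linarith
  have hε2 : 0 < ε ^ 2 := by positivity
  have h1600 : (1 : ℝ) ≤ (1600 : ℝ) ^ r := Real.one_le_rpow (by norm_num) hr0.le
  by_cases hX : 2 ≤ X.card
  · -- the weighted dominating edge set of the finite metric space `X`
    obtain ⟨E, hEpos, hEcost, hEctl⟩ := exists_dominating r hr1 {x // x ∈ X}
    set C₀ : ℝ := 1 + 12 * (2 * (⌈2 * (10 : ℝ) ^ r⌉₊ : ℝ)) * 160 ^ r with hC₀
    have h160 : (0 : ℝ) ≤ (160 : ℝ) ^ r := Real.rpow_nonneg (by norm_num) _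
    have h10 : (1 : ℝ) ≤ (10 : ℝ) ^ r := Real.one_le_rpow (by norm_num) hr0.le
    have hC₀1 : 1 ≤ C₀ := by
      rw [hC₀]
      have : 0 ≤ 12 * (2 * (⌈2 * (10 : ℝ) ^ r⌉₊ : ℝ)) * 160 ^ r := by positivity
      linarith
    have hC₀le : C₀ ≤ 73 * (1600 : ℝ) ^ r := by
      have hceil : (⌈2 * (10 : ℝ) ^ r⌉₊ : ℝ) ≤ 3 * (10 : ℝ) ^ r := by
        have h1 := Nat.ceil_lt_add_one (by positivity : (0 : ℝ) ≤ 2 * (10 : ℝ) ^ r)
        linarith
      have hmul : (10 : ℝ) ^ r * (160 : ℝ) ^ r = (1600 : ℝ) ^ r := by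
        rw [← Real.mul_rpow (by norm_num) (by norm_num)]
        norm_num
      have h2 : 12 * (2 * (⌈2 * (10 : ℝ) ^ r⌉₊ : ℝ)) * 160 ^ r ≤
          12 * (2 * (3 * (10 : ℝ) ^ r)) * 160 ^ r := by
        apply mul_le_mul_of_nonneg_right _ h160
        linarith
      have h3 : 12 * (2 * (3 * (10 : ℝ) ^ r)) * (160 : ℝ) ^ r = 72 * (1600 : ℝ) ^ r := by
        rw [← hmul]; ring
      rw [hC₀]
      linarith
    obtain ⟨F, hFpos, hFcost, hFdom⟩ := finset_of_list r _ E hEpos hEcost hEctl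
    have hcard : (Fintype.card {x // x ∈ X} : ℝ) = X.card := by simp
    rw [hcard] at hFcost
    have hFdom' : ∀ (t : {x // x ∈ X} → ℝ) (L : ℝ), 0 ≤ L →
        (∀ e ∈ F, e.2.2 * |t e.1 - t e.2.1| ≤ L * ‖(e.1 : Lp ℝ p μ) - e.2.1‖) →
        ∀ u v : {x // x ∈ X}, |t u - t v| ≤ L * ‖(u : Lp ℝ p μ) - v‖ := by
      intro t L hL hA u v
      have h := hFdom t L hL (fun e he => by
        rw [Subtype.dist_eq, dist_eq_norm]; exact hA e he) u v
      rwa [Subtype.dist_eq, dist_eq_norm] at h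
    set η : ℝ := ε / 3 with hη
    have hη0 : 0 < η := by rw [hη]; positivity
    have hη1 : η < 1 := by rw [hη]; linarith
    obtain ⟨d, hd, f, hf⟩ := main_weighted p hp η hη0 hη1 C₀ hC₀1 μ X hX F hFpos hFcost hFdom'
    have h1η : 0 < 1 - η := by linarith
    refine ⟨d, f, (1 - η) ^ (1 / r), ?_, Real.rpow_pos_of_pos h1η _, ?_⟩
    · -- the dimension bound
      set n : ℝ := (X.card : ℝ) with hn
      have hn2 : (2 : ℝ) ≤ n := by rw [hn]; exact_mod_cast hX
      have hlogn : 0 ≤ Real.log n := Real.log_nonneg (by linarith)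
      have hnl : 0 ≤ n * Real.log n := mul_nonneg (by linarith) hlogn
      have hcoef : 12 * C₀ / η ^ 2 + 2 ≤ 10000 * (1600 : ℝ) ^ r / ε ^ 2 := by
        have h1 : 12 * C₀ / η ^ 2 = 108 * C₀ / ε ^ 2 := by
          rw [hη]; field_simp; ring
        have h2 : (2 : ℝ) ≤ 2 * (1600 : ℝ) ^ r / ε ^ 2 := by
          rw [le_div_iff₀ hε2]
          have : ε ^ 2 ≤ 1 := by nlinarith
          nlinarith
        have h3 : 108 * C₀ / ε ^ 2 ≤ 108 * (73 * (1600 : ℝ) ^ r) / ε ^ 2 := by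
          apply div_le_div_of_nonneg_right _ hε2.le
          linarith
        have h4 : 108 * (73 * (1600 : ℝ) ^ r) / ε ^ 2 + 2 * (1600 : ℝ) ^ r / ε ^ 2 ≤
            10000 * (1600 : ℝ) ^ r / ε ^ 2 := by
          rw [← add_div]
          apply div_le_div_of_nonneg_right _ hε2.le
          nlinarith
        rw [h1]
        linarith
      calc (d : ℝ) ≤ (12 * C₀ / η ^ 2 + 2) * n * Real.log n := hd
        _ = (12 * C₀ / η ^ 2 + 2) * (n * Real.log n) := by ring
        _ ≤ 10000 * (1600 : ℝ) ^ r / ε ^ 2 * (n * Real.log n) :=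
            mul_le_mul_of_nonneg_right hcoef hnl
        _ = 10000 * (1600 : ℝ) ^ r * n * Real.log n / ε ^ 2 := by ring
    · intro x hx y hy
      obtain ⟨h1, h2⟩ := hf x hx y hy
      have hroot : ∀ t : ℝ, 0 ≤ t → (t ^ r) ^ (1 / r) = t := by
        intro t ht
        rw [← Real.rpow_mul ht, mul_one_div_cancel hr0.ne', Real.rpow_one]
      have hw : 0 ≤ ‖x - y‖ := norm_nonneg _
      have hwr : 0 ≤ ‖x - y‖ ^ r := Real.rpow_nonneg hw _
      constructor
      · have h3 := Real.rpow_le_rpow (mul_nonneg h1η.le hwr) h1 (one_div_nonneg.mpr hr0.le)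
        rwa [Real.mul_rpow h1η.le hwr, hroot _ hw, hroot _ (norm_nonneg _)] at h3
      · have hε0' : (0 : ℝ) ≤ 1 + ε := by linarith
        have hkey : 1 + η ≤ (1 + ε) ^ r * (1 - η) := by
          have ha : 1 + η ≤ (1 + ε) * (1 - η) := by
            rw [hη]; nlinarith
          have hb : 1 + ε ≤ (1 + ε) ^ r := by
            have := Real.rpow_le_rpow_of_exponent_le (by linarith : (1 : ℝ) ≤ 1 + ε) hr1
            rwa [Real.rpow_one] at this
          calc 1 + η ≤ (1 + ε) * (1 - η) := ha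
            _ ≤ (1 + ε) ^ r * (1 - η) := mul_le_mul_of_nonneg_right hb h1η.le
        have h4 : ‖f x - f y‖ ^ r ≤ (1 + ε) ^ r * (1 - η) * ‖x - y‖ ^ r :=
          le_trans h2 (mul_le_mul_of_nonneg_right hkey hwr)
        have h3 := Real.rpow_le_rpow (Real.rpow_nonneg (norm_nonneg _) _) h4
          (one_div_nonneg.mpr hr0.le)
        rwa [hroot _ (norm_nonneg _),
          Real.mul_rpow (mul_nonneg (Real.rpow_nonneg hε0' _) h1η.le) hwr,
          Real.mul_rpow (Real.rpow_nonneg hε0' _) h1η.le, hroot _ hw, hroot _ hε0'] at h3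
  · refine ⟨0, fun _ => 0, 1, ?_, one_pos, ?_⟩
    · have h : X.card = 0 ∨ X.card = 1 := by omega
      rcases h with h | h <;> simp [h]
    · intro x hx y hy
      have hxy : x = y := Finset.card_le_one.mp (by omega) x hx y hy
      subst hxy
      simp

end Vale.Agent.H67
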