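import Mathlib
import Vale.Agent.H5.Spanner

/-!
Greedy spanner, hop form: the greedy construction of `Vale.Agent.H5.Spanner` joins every pair
by a walk with at most `2k - 1` edges, each of which is no heavier than the pair itself.
-/

namespace Vale.Agent.H67

open SimpleGraph
open Vale.Agent.H5

variable {V : Type*}

/-- The invariant of the greedy construction, hop form. -/
def HopInv (w : V → V → ℝ) (k : ℕ) (H : SimpleGraph V) (P : Finset (Sym2 V)) : Prop :=
  (∀ a b, H.Adj a b → s(a, b) ∈ P) ∧
  (∀ a b, a ≠ b → s(a, b) ∈ P → ∃ p : H.Walk a b, p.length ≤ 2 * k - 1 ∧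
      ∀ d ∈ p.darts, w d.fst d.snd ≤ w a b) ∧
  NoShort k H

lemma darts_mapLe_light {G H : SimpleGraph V} (hGH : G ≤ H) (w : V → V → ℝ) (W : ℝ)
    {u v : V} (p : G.Walk u v) (hp : ∀ d ∈ p.darts, w d.fst d.snd ≤ W) :
    ∀ d ∈ (p.mapLe hGH).darts, w d.fst d.snd ≤ W := by
  intro d hd
  simp only [Walk.mapLe, Walk.darts_map, List.mem_map] at hd
  obtain ⟨d', hd', rfl⟩ := hd
  exact hp d' hd'

lemma hop_step (w : V → V → ℝ) (hw : ∀ u v, w u v = w v u) (k : ℕ) (hk : 1 ≤ k)
    (H : SimpleGraph V) (P : Finset (Sym2 V)) [DecidableEq V] (hInv : HopInv w k H P)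
    (u v : V) (huv : u ≠ v) (hmax : ∀ a b, s(a, b) ∈ P → w a b ≤ w u v) :
    ∃ H' : SimpleGraph V, HopInv w k H' (insert s(u, v) P) := by
  obtain ⟨hI1, hI2, hI3⟩ := hInv
  by_cases hex : ∃ p : H.Walk u v, p.length ≤ 2 * k - 1
  · -- the pair is already spanned
    refine ⟨H, ?_, ?_, hI3⟩
    · intro a b hab
      exact Finset.mem_insert_of_mem (hI1 a b hab)
    · intro a b hab hmem
      rw [Finset.mem_insert] at hmem
      rcases hmem with heq | hmem
      · obtain ⟨p, hp⟩ := hex
        rw [Sym2.eq_iff] at heq
        rcases heq with ⟨rfl, rfl⟩ | ⟨rfl, rfl⟩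
        · exact ⟨p, hp, fun d _ => hmax _ _ (hI1 _ _ d.adj)⟩
        · refine ⟨p.reverse, by rw [Walk.length_reverse]; exact hp, ?_⟩
          intro d _
          have h1 := hmax _ _ (hI1 _ _ d.adj)
          rw [hw a b]
          exact h1
      · exact hI2 a b hab hmem
  · -- add the edge
    have hshort : ∀ p : H.Walk u v, 2 * k ≤ p.length := by
      intro p
      by_contra hlt
      exact hex ⟨p, by omega⟩
    have hshort' : ∀ p : H.Walk v u, 2 * k ≤ p.length := by
      intro p
      have := hshort p.reverse
      rwa [Walk.length_reverse] at this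
    set H' : SimpleGraph V := H ⊔ SimpleGraph.fromEdgeSet {s(u, v)} with hH'
    have hle : H ≤ H' := le_sup_left
    have hadj : ∀ x y, H'.Adj x y → H.Adj x y ∨ s(x, y) = s(u, v) := by
      intro x y hxy
      rw [hH', SimpleGraph.sup_adj, SimpleGraph.fromEdgeSet_adj] at hxy
      rcases hxy with h | ⟨h, _⟩
      · exact Or.inl h
      · exact Or.inr (by simpa using h)
    have hnew : H'.Adj u v := by
      rw [hH', SimpleGraph.sup_adj, SimpleGraph.fromEdgeSet_adj]
      exact Or.inr ⟨by simp, huv⟩
    refine ⟨H', ?_, ?_, ?_⟩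
    · intro a b hab
      rcases hadj a b hab with h | h
      · exact Finset.mem_insert_of_mem (hI1 a b h)
      · rw [h]; exact Finset.mem_insert_self _ _
    · intro a b hab hmem
      rw [Finset.mem_insert] at hmem
      rcases hmem with heq | hmem
      · rw [Sym2.eq_iff] at heq
        have key : ∀ x y, H'.Adj x y →
            ∃ p : H'.Walk x y, p.length ≤ 2 * k - 1 ∧ ∀ d ∈ p.darts, w d.fst d.snd ≤ w x y := by
          intro x y hxy
          refine ⟨Walk.cons hxy Walk.nil, by simp; omega, ?_⟩
          intro d hd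
          simp only [Walk.darts_cons, Walk.darts_nil, List.mem_singleton] at hd
          rw [hd]
        rcases heq with ⟨rfl, rfl⟩ | ⟨rfl, rfl⟩
        · exact key a b hnew
        · exact key a b hnew.symm
      · obtain ⟨p, hp, hlight⟩ := hI2 a b hab hmem
        exact ⟨p.mapLe hle, by rw [length_mapLe]; exact hp,
          darts_mapLe_light hle w _ p hlight⟩
    · intro a b hab q hq
      by_contra hlt
      push Not at hlt
      rcases hadj a b hab with hHab | hnewab
      · rcases walk_insert_edge hadj q with ⟨q', hl, he⟩ | ⟨_, q₁, q₂, hl, _, _⟩ |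
          ⟨_, q₁, q₂, hl, _, _⟩
        · have := hI3 a b hHab q' (fun h => hq (he _ h))
          omega
        · have := hshort (q₁.reverse.append (Walk.cons hHab q₂.reverse))
          simp only [Walk.length_append, Walk.length_reverse, Walk.length_cons] at this
          omega
        · have := hshort' (q₁.reverse.append (Walk.cons hHab q₂.reverse))
          simp only [Walk.length_append, Walk.length_reverse, Walk.length_cons] at this
          omega
      · rcases walk_insert_edge hadj q with ⟨q', hl, he⟩ | ⟨hm, _⟩ | ⟨hm, _⟩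
        · rw [Sym2.eq_iff] at hnewab
          rcases hnewab with ⟨rfl, rfl⟩ | ⟨rfl, rfl⟩
          · have := hshort q'
            omega
          · have := hshort' q'
            omega
        · exact hq (hnewab ▸ hm)
        · exact hq (hnewab ▸ hm)

lemma hop_exists [Fintype V] [DecidableEq V] (w : V → V → ℝ) (hw : ∀ u v, w u v = w v u)
    (k : ℕ) (hk : 1 ≤ k) :
    ∃ H : SimpleGraph V,
      (∀ a b, a ≠ b → ∃ p : H.Walk a b, p.length ≤ 2 * k - 1 ∧
        ∀ d ∈ p.darts, w d.fst d.snd ≤ w a b) ∧ NoShort k H := by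
  classical
  set ND : Finset (Sym2 V) := Finset.univ.filter (fun e => ¬ e.IsDiag) with hND
  set wS : Sym2 V → ℝ := Sym2.lift ⟨w, hw⟩ with hwS
  have hwS_mk : ∀ a b, wS s(a, b) = w a b := fun a b => rfl
  have key : ∀ m : ℕ, ∀ P : Finset (Sym2 V), P ⊆ ND → (ND \ P).card = m →
      (∀ e ∈ P, ∀ e' ∈ ND \ P, wS e ≤ wS e') → (∃ H, HopInv w k H P) →
      ∃ H, HopInv w k H ND := by
    intro m
    induction m with
    | zero =>
      intro P hP hcard _ hex
      have : ND \ P = ∅ := Finset.card_eq_zero.mp hcard
      have hsub : ND ⊆ P := Finset.sdiff_eq_empty_iff_subset.mp this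
      have : P = ND := Finset.Subset.antisymm hP hsub
      rw [← this]
      exact hex
    | succ m ih =>
      intro P hP hcard hdown hex
      have hne : (ND \ P).Nonempty := by
        rw [← Finset.card_pos]; omega
      obtain ⟨e₀, he₀, hmin⟩ := Finset.exists_min_image (ND \ P) wS hne
      induction e₀ using Sym2.ind with
      | _ u v =>
        have he₀' := Finset.mem_sdiff.mp he₀
        have huv : u ≠ v := by
          have := (Finset.mem_filter.mp he₀'.1).2
          simpa using this
        obtain ⟨H, hH⟩ := hex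
        have hmax : ∀ a b, s(a, b) ∈ P → w a b ≤ w u v := by
          intro a b hab
          have := hdown s(a, b) hab s(u, v) he₀
          simpa [hwS_mk] using this
        obtain ⟨H', hH'⟩ := hop_step w hw k hk H P hH u v huv hmax
        apply ih (insert s(u, v) P)
        · intro e he
          rw [Finset.mem_insert] at he
          rcases he with rfl | he
          · exact he₀'.1
          · exact hP he
        · rw [Finset.sdiff_insert, Finset.card_erase_of_mem he₀, hcard]
          rfl
        · intro e he e' he'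
          have he'2 : e' ∈ ND \ P := by
            rw [Finset.mem_sdiff] at he' ⊢
            exact ⟨he'.1, fun h => he'.2 (Finset.mem_insert_of_mem h)⟩
          rw [Finset.mem_insert] at he
          rcases he with rfl | he
          · exact hmin e' he'2
          · exact hdown e he e' he'2
        · exact ⟨H', hH'⟩
  obtain ⟨H, hI1, hI2, hI3⟩ := key (ND \ ∅).card ∅ (Finset.empty_subset _) rfl
    (by intro e he; simp at he)
    ⟨⊥, by intro a b hab; exact absurd hab (by simp), by intro a b _ hab; simp at hab,
      by intro a b hab; exact absurd hab (by simp)⟩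
  refine ⟨H, ?_, hI3⟩
  intro a b hab
  apply hI2 a b hab
  rw [hND, Finset.mem_filter]
  exact ⟨Finset.mem_univ _, by simpa using hab⟩

/-- **Greedy spanner, hop form**: if `|V| < t ^ k` there is a set of at most `|V| * t` edges in
which every pair `u ≠ v` is joined by a walk with at most `2k - 1` edges, each of weight at
most `w u v`. -/
theorem exists_spanner_hops {V : Type*} [Fintype V] [DecidableEq V] (w : V → V → ℝ)
    (hw : ∀ u v, w u v = w v u) (k t : ℕ) (hk : 1 ≤ k)
    (ht : Fintype.card V < t ^ k) :
    ∃ (E : Finset (Sym2 V)), E.card ≤ Fintype.card V * t ∧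
      ∀ u v : V, u ≠ v → ∃ p : (SimpleGraph.fromEdgeSet (E : Set (Sym2 V))).Walk u v,
        p.length ≤ 2 * k - 1 ∧ ∀ d ∈ p.darts, w d.fst d.snd ≤ w u v := by
  classical
  obtain ⟨H, hH1, hH2⟩ := hop_exists w hw k hk
  refine ⟨H.edgeFinset, ?_, ?_⟩
  · have := moore_bound k t (Finset.univ : Finset V).card Finset.univ H rfl
      (fun a b _ => ⟨Finset.mem_univ _, Finset.mem_univ _⟩) hH2
      (by rw [Finset.card_univ]; exact ht)
    rwa [Finset.card_univ] at this
  · intro u v huv
    obtain ⟨p, hp, hlight⟩ := hH1 u v huv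
    have hle : H ≤ SimpleGraph.fromEdgeSet (H.edgeFinset : Set (Sym2 V)) := by
      rw [SimpleGraph.coe_edgeFinset, SimpleGraph.fromEdgeSet_edgeSet]
    exact ⟨p.mapLe hle, by rw [length_mapLe]; exact hp, darts_mapLe_light hle w _ p hlight⟩

end Vale.Agent.H67
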