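import Mathlib

/-!
Linear `ε`-isometric dimension reduction of the unit ball of `ℓ_p` is impossible for `p ≠ 2`:
for `n = 2^k` there are `2n+1` points of the unit ball of `ℓ_p^n` (the origin, the unit vector
basis and the normalised rows of the Walsh matrix) such that every linear map into `ℓ_p^d`
that changes their pairwise distances by at most `ε` additively has
`d ≥ n ((1-ε)/(1+ε))^(2p/|p-2|)`.
-/

namespace Vale.Agent.H67

open Finset

/-- sum of powers is at most the power of the sum (exponent at least one) -/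
theorem sum_rpow_le_rpow_sum_aux {κ : Type*} (s : Finset κ) (f : κ → ℝ)
    (hf : ∀ i ∈ s, 0 ≤ f i) {r : ℝ} (hr : 1 ≤ r) :
    ∑ i ∈ s, f i ^ r ≤ (∑ i ∈ s, f i) ^ r := by
  classical
  induction s using Finset.induction_on with
  | empty => simp [Real.zero_rpow (by linarith : r ≠ 0)]
  | insert a s ha ih =>
    rw [Finset.sum_insert ha, Finset.sum_insert ha]
    have h1 : 0 ≤ f a := hf a (Finset.mem_insert_self a s)
    have h2 : 0 ≤ ∑ i ∈ s, f i :=
      Finset.sum_nonneg (fun i hi => hf i (Finset.mem_insert_of_mem hi))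
    have h3 := ih (fun i hi => hf i (Finset.mem_insert_of_mem hi))
    calc f a ^ r + ∑ i ∈ s, f i ^ r ≤ f a ^ r + (∑ i ∈ s, f i) ^ r := by linarith
      _ ≤ (f a + ∑ i ∈ s, f i) ^ r := Real.add_rpow_le_rpow_add h1 h2 hr

section Walsh

/-- Walsh matrix entries indexed by Boolean vectors. -/
noncomputable def walsh (k : ℕ) (s t : Fin k → Bool) : ℝ :=
  ∏ i, (if (s i && t i) then (-1 : ℝ) else 1)

theorem walsh_abs (k : ℕ) (s t : Fin k → Bool) : |walsh k s t| = 1 := by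
  unfold walsh
  rw [Finset.abs_prod]
  apply Finset.prod_eq_one
  intro i _
  split_ifs <;> simp

theorem walsh_orth (k : ℕ) (s s' : Fin k → Bool) :
    ∑ t, walsh k s t * walsh k s' t = if s = s' then (2 : ℝ) ^ k else 0 := by
  have h1 : ∀ t : Fin k → Bool, walsh k s t * walsh k s' t =
      ∏ i, ((if (s i && t i) then (-1 : ℝ) else 1) *
        (if (s' i && t i) then (-1 : ℝ) else 1)) := by
    intro t; unfold walsh; rw [Finset.prod_mul_distrib]
  simp_rw [h1]
  have h2 := (Finset.prod_univ_sum (fun _ : Fin k => (Finset.univ : Finset Bool))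
    (fun i b => (if (s i && b) then (-1 : ℝ) else 1) *
      (if (s' i && b) then (-1 : ℝ) else 1))).symm
  rw [Fintype.piFinset_univ] at h2
  rw [h2]
  have h3 : ∀ i, ∑ b : Bool, ((if (s i && b) then (-1 : ℝ) else 1) *
      (if (s' i && b) then (-1 : ℝ) else 1)) = if s i = s' i then 2 else 0 := by
    intro i
    rw [Fintype.sum_bool]
    cases s i <;> cases s' i <;> norm_num
  simp_rw [h3]
  by_cases h : s = s'
  · subst h; simp
  · rw [if_neg h]
    obtain ⟨i, hi⟩ := Function.ne_iff.mp h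
    exact Finset.prod_eq_zero (Finset.mem_univ i) (by rw [if_neg hi])

end Walsh

section Core

variable {ι : Type*} [Fintype ι] [DecidableEq ι]

theorem parseval_aux (W : ι → ι → ℝ)
    (hW2 : ∀ i i', ∑ j, W i j * W i' j = if i = i' then (Fintype.card ι : ℝ) else 0)
    (c : ι → ℝ) :
    ∑ j, (∑ i, W i j * c i) ^ 2 = (Fintype.card ι : ℝ) * ∑ i, c i ^ 2 := by
  have h1 : ∀ j, (∑ i, W i j * c i) ^ 2 = ∑ i, ∑ i', (W i j * W i' j) * (c i * c i') := by
    intro j
    rw [sq, Finset.sum_mul_sum]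
    refine Finset.sum_congr rfl (fun i _ => Finset.sum_congr rfl (fun i' _ => by ring))
  simp_rw [h1]
  rw [Finset.sum_comm]
  have h2 : ∀ i, ∑ j, ∑ i', (W i j * W i' j) * (c i * c i') =
      (Fintype.card ι : ℝ) * c i ^ 2 := by
    intro i
    rw [Finset.sum_comm]
    have h3 : ∀ i', ∑ j, (W i j * W i' j) * (c i * c i') =
        (if i = i' then (Fintype.card ι : ℝ) else 0) * (c i * c i') := by
      intro i'
      rw [← Finset.sum_mul, hW2]
    simp_rw [h3]
    rw [Finset.sum_eq_single i]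
    · rw [if_pos rfl]; ring
    · intro b _ hb
      rw [if_neg (Ne.symm hb)]; ring
    · intro h; exact absurd (Finset.mem_univ i) h
  simp_rw [h2]
  rw [Finset.mul_sum]

/-- core inequality, case `2 < p` -/
theorem core_gt (W : ι → ι → ℝ)
    (hW2 : ∀ i i', ∑ j, W i j * W i' j = if i = i' then (Fintype.card ι : ℝ) else 0)
    (p : ℝ) (hp : 2 < p) (d : ℕ) (A : ι → Fin d → ℝ) (lo hi : ℝ) (hlo : 0 < lo) (hhi : 0 < hi)
    (hA : ∀ i, lo ^ p ≤ ∑ k, |A i k| ^ p)
    (hB : ∀ j, (1 / (Fintype.card ι : ℝ)) * ∑ k, |∑ i, W i j * A i k| ^ p ≤ hi ^ p) :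
    (Fintype.card ι : ℝ) * (lo / hi) ^ (2 * p / (p - 2)) ≤ d := by
  rcases Nat.eq_zero_or_pos (Fintype.card ι) with hn0 | hnpos
  · rw [hn0]; simp
  set n : ℝ := (Fintype.card ι : ℝ) with hn
  have hn1 : 0 < n := by rw [hn]; exact_mod_cast hnpos
  set q : ℝ := p / 2 with hq
  have hq1 : 1 < q := by rw [hq]; linarith
  have hp0 : 0 < p := by linarith
  set a : Fin d → ℝ := fun k => ∑ i, A i k ^ 2 with ha
  have ha0 : ∀ k, 0 ≤ a k := fun k => Finset.sum_nonneg (fun i _ => sq_nonneg _)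
  have habs : ∀ x : ℝ, (x ^ 2) ^ q = |x| ^ p := by
    intro x
    rw [← sq_abs, ← Real.rpow_natCast, ← Real.rpow_mul (abs_nonneg x)]
    congr 1; rw [hq]; push_cast; ring
  -- S2
  have hS2 : ∀ k, n * a k ^ q ≤ ∑ j, |∑ i, W i j * A i k| ^ p := by
    intro k
    have h1 := Real.rpow_sum_le_const_mul_sum_rpow_of_nonneg (s := Finset.univ)
      (f := fun j => (∑ i, W i j * A i k) ^ 2) (p := q) hq1.le (fun j _ => sq_nonneg _)
    rw [parseval_aux W hW2 (fun i => A i k)] at h1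
    simp only [habs] at h1
    rw [Finset.card_univ, Real.mul_rpow hn1.le (ha0 k)] at h1
    have h2 : n ^ q = n ^ (q - 1) * n := by
      rw [← Real.rpow_add_one hn1.ne']; congr 1; ring
    rw [h2] at h1
    have h3 : 0 < n ^ (q - 1) := Real.rpow_pos_of_pos hn1 _
    have h4 : n ^ (q - 1) * (n * a k ^ q) ≤ n ^ (q - 1) * ∑ j, |∑ i, W i j * A i k| ^ p := by
      calc n ^ (q - 1) * (n * a k ^ q) = n ^ (q - 1) * n * a k ^ q := by ring
        _ ≤ _ := h1
    exact le_of_mul_le_mul_left h4 h3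
  -- S3
  have hS3 : ∑ k, a k ^ q ≤ n * hi ^ p := by
    have h1 : ∑ j : ι, (1 / n) * ∑ k, |∑ i, W i j * A i k| ^ p ≤ ∑ _j : ι, hi ^ p :=
      Finset.sum_le_sum (fun j _ => hB j)
    rw [Finset.sum_const, Finset.card_univ, nsmul_eq_mul, ← Finset.mul_sum,
      Finset.sum_comm] at h1
    have h2 : ∑ k, n * a k ^ q ≤ ∑ k, ∑ j, |∑ i, W i j * A i k| ^ p :=
      Finset.sum_le_sum (fun k _ => hS2 k)
    rw [← Finset.mul_sum] at h2
    have h3 : n * ∑ k, a k ^ q ≤ n * (n * hi ^ p) := by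
      calc n * ∑ k, a k ^ q ≤ ∑ k, ∑ j, |∑ i, W i j * A i k| ^ p := h2
        _ = n * ((1 / n) * ∑ k, ∑ j, |∑ i, W i j * A i k| ^ p) := by field_simp
        _ ≤ n * (n * hi ^ p) := mul_le_mul_of_nonneg_left h1 hn1.le
    exact le_of_mul_le_mul_left h3 hn1
  -- S4
  have hS4 : (∑ k, a k) ^ q ≤ (d : ℝ) ^ (q - 1) * ∑ k, a k ^ q := by
    have h1 := Real.rpow_sum_le_const_mul_sum_rpow_of_nonneg (s := Finset.univ)
      (f := a) (p := q) hq1.le (fun k _ => ha0 k)
    rwa [Finset.card_univ, Fintype.card_fin] at h1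
  -- S5
  have hS5 : n * lo ^ 2 ≤ ∑ k, a k := by
    have h1 : ∀ i, lo ^ 2 ≤ ∑ k, A i k ^ 2 := by
      intro i
      have h2 := sum_rpow_le_rpow_sum_aux (Finset.univ) (fun k => A i k ^ 2)
        (fun k _ => sq_nonneg _) hq1.le
      simp only [habs] at h2
      have h3 : lo ^ p ≤ (∑ k, A i k ^ 2) ^ q := le_trans (hA i) h2
      have h4 : lo ^ p = (lo ^ 2) ^ q := by
        rw [← Real.rpow_natCast, ← Real.rpow_mul hlo.le]; congr 1; rw [hq]; push_cast; ring
      rw [h4] at h3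
      exact le_of_not_gt (fun hlt => absurd h3 (not_le.mpr
        (Real.rpow_lt_rpow (Finset.sum_nonneg (fun k _ => sq_nonneg _)) hlt (by linarith))))
    have h5 : ∑ _i : ι, lo ^ 2 ≤ ∑ i, ∑ k, A i k ^ 2 := Finset.sum_le_sum (fun i _ => h1 i)
    rw [Finset.sum_const, Finset.card_univ, nsmul_eq_mul, Finset.sum_comm] at h5
    exact h5
  -- S6
  have hd0 : (0 : ℝ) ≤ d := Nat.cast_nonneg d
  have h6 : (n * lo ^ 2) ^ q ≤ (d : ℝ) ^ (q - 1) * (n * hi ^ p) :=
    calc (n * lo ^ 2) ^ q ≤ (∑ k, a k) ^ q :=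
          Real.rpow_le_rpow (by positivity) hS5 (by linarith)
      _ ≤ (d : ℝ) ^ (q - 1) * ∑ k, a k ^ q := hS4
      _ ≤ (d : ℝ) ^ (q - 1) * (n * hi ^ p) :=
          mul_le_mul_of_nonneg_left hS3 (Real.rpow_nonneg hd0 _)
  have h7 : (n * lo ^ 2) ^ q = n ^ (q - 1) * n * lo ^ p := by
    rw [Real.mul_rpow hn1.le (sq_nonneg lo)]
    have : (lo ^ 2) ^ q = lo ^ p := by
      rw [← Real.rpow_natCast, ← Real.rpow_mul hlo.le]; congr 1; rw [hq]; push_cast; ring
    rw [this, ← Real.rpow_add_one hn1.ne']; congr 2; ring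
  rw [h7] at h6
  have hhip : 0 < hi ^ p := Real.rpow_pos_of_pos hhi p
  have h8 : n ^ (q - 1) * (lo / hi) ^ p ≤ (d : ℝ) ^ (q - 1) := by
    rw [Real.div_rpow hlo.le hhi.le]
    rw [mul_div_assoc', div_le_iff₀ hhip]
    have : n ^ (q - 1) * lo ^ p * n ≤ (d : ℝ) ^ (q - 1) * hi ^ p * n := by
      calc n ^ (q - 1) * lo ^ p * n = n ^ (q - 1) * n * lo ^ p := by ring
        _ ≤ (d : ℝ) ^ (q - 1) * (n * hi ^ p) := h6
        _ = (d : ℝ) ^ (q - 1) * hi ^ p * n := by ring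
    exact le_of_mul_le_mul_right this hn1
  have hq10 : 0 < q - 1 := by linarith
  have hr0 : 0 < lo / hi := div_pos hlo hhi
  have h9 : (n ^ (q - 1) * (lo / hi) ^ p) ^ (1 / (q - 1)) ≤ ((d : ℝ) ^ (q - 1)) ^ (1 / (q - 1)) :=
    Real.rpow_le_rpow (by positivity) h8 (by positivity)
  rw [← Real.rpow_mul hd0, mul_one_div_cancel hq10.ne', Real.rpow_one,
    Real.mul_rpow (by positivity) (by positivity), ← Real.rpow_mul hn1.le,
    mul_one_div_cancel hq10.ne', Real.rpow_one, ← Real.rpow_mul hr0.le] at h9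
  have h10 : p * (1 / (q - 1)) = 2 * p / (p - 2) := by
    rw [hq]; field_simp
  rw [h10] at h9
  exact h9

/-- core inequality, case `0 < p < 2` -/
theorem core_lt (W : ι → ι → ℝ)
    (hW2 : ∀ i i', ∑ j, W i j * W i' j = if i = i' then (Fintype.card ι : ℝ) else 0)
    (p : ℝ) (hp0 : 0 < p) (hp : p < 2) (d : ℕ) (A : ι → Fin d → ℝ) (lo hi : ℝ)
    (hlo : 0 < lo) (hhi : 0 < hi)
    (hA : ∀ i, ∑ k, |A i k| ^ p ≤ hi ^ p)
    (hB : ∀ j, lo ^ p ≤ (1 / (Fintype.card ι : ℝ)) * ∑ k, |∑ i, W i j * A i k| ^ p) :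
    (Fintype.card ι : ℝ) * (lo / hi) ^ (2 * p / (2 - p)) ≤ d := by
  rcases Nat.eq_zero_or_pos (Fintype.card ι) with hn0 | hnpos
  · rw [hn0]; simp
  set n : ℝ := (Fintype.card ι : ℝ) with hn
  have hn1 : 0 < n := by rw [hn]; exact_mod_cast hnpos
  set q : ℝ := p / 2 with hq
  set r : ℝ := 2 / p with hr
  have hq0 : 0 < q := by rw [hq]; linarith
  have hq1 : q < 1 := by rw [hq]; linarith
  have hr1 : 1 < r := by rw [hr, lt_div_iff₀ hp0]; linarith
  have hrq : r * q = 1 := by rw [hr, hq]; field_simp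
  have hqr : q * r = 1 := by rw [mul_comm]; exact hrq
  set a : Fin d → ℝ := fun k => ∑ i, A i k ^ 2 with ha
  have ha0 : ∀ k, 0 ≤ a k := fun k => Finset.sum_nonneg (fun i _ => sq_nonneg _)
  have habs : ∀ x : ℝ, (|x| ^ p) ^ r = x ^ 2 := by
    intro x
    rw [← Real.rpow_mul (abs_nonneg x), ← sq_abs x, ← Real.rpow_natCast]
    congr 1; rw [hr]; push_cast; field_simp
  -- S2
  have hS2 : ∀ k, ∑ j, |∑ i, W i j * A i k| ^ p ≤ n * a k ^ q := by
    intro k
    have h1 := Real.rpow_sum_le_const_mul_sum_rpow_of_nonneg (s := Finset.univ)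
      (f := fun j => |∑ i, W i j * A i k| ^ p) (p := r) hr1.le
      (fun j _ => Real.rpow_nonneg (abs_nonneg _) _)
    simp only [habs] at h1
    rw [parseval_aux W hW2 (fun i => A i k), Finset.card_univ] at h1
    have h2 : n ^ (r - 1) * (n * a k) = n ^ r * a k := by
      rw [← mul_assoc, ← Real.rpow_add_one hn1.ne']; congr 2; ring
    rw [h2] at h1
    have h0 : 0 ≤ ∑ j, |∑ i, W i j * A i k| ^ p :=
      Finset.sum_nonneg (fun j _ => Real.rpow_nonneg (abs_nonneg _) _)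
    have h3 : ((∑ j, |∑ i, W i j * A i k| ^ p) ^ r) ^ q ≤ (n ^ r * a k) ^ q :=
      Real.rpow_le_rpow (Real.rpow_nonneg h0 _) h1 hq0.le
    rw [← Real.rpow_mul h0, hrq, Real.rpow_one,
      Real.mul_rpow (Real.rpow_nonneg hn1.le _) (ha0 k), ← Real.rpow_mul hn1.le, hrq,
      Real.rpow_one] at h3
    exact h3
  -- S3
  have hS3 : n * lo ^ p ≤ ∑ k, a k ^ q := by
    have h1 : ∑ _j : ι, lo ^ p ≤ ∑ j : ι, (1 / n) * ∑ k, |∑ i, W i j * A i k| ^ p :=
      Finset.sum_le_sum (fun j _ => hB j)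
    rw [Finset.sum_const, Finset.card_univ, nsmul_eq_mul, ← Finset.mul_sum,
      Finset.sum_comm] at h1
    have h2 : ∑ k, ∑ j, |∑ i, W i j * A i k| ^ p ≤ ∑ k, n * a k ^ q :=
      Finset.sum_le_sum (fun k _ => hS2 k)
    rw [← Finset.mul_sum] at h2
    calc n * lo ^ p ≤ (1 / n) * ∑ k, ∑ j, |∑ i, W i j * A i k| ^ p := h1
      _ ≤ (1 / n) * (n * ∑ k, a k ^ q) := mul_le_mul_of_nonneg_left h2 (by positivity)
      _ = ∑ k, a k ^ q := by field_simp
  -- S4
  have hd0 : (0 : ℝ) ≤ d := Nat.cast_nonneg d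
  have hsum0 : 0 ≤ ∑ k, a k := Finset.sum_nonneg (fun k _ => ha0 k)
  have hS4 : ∑ k, a k ^ q ≤ (d : ℝ) ^ (1 - q) * (∑ k, a k) ^ q := by
    have h1 := Real.rpow_sum_le_const_mul_sum_rpow_of_nonneg (s := Finset.univ)
      (f := fun k => a k ^ q) (p := r) hr1.le (fun k _ => Real.rpow_nonneg (ha0 k) _)
    have h2 : ∀ k, (a k ^ q) ^ r = a k := by
      intro k; rw [← Real.rpow_mul (ha0 k), hqr, Real.rpow_one]
    simp only [h2] at h1
    rw [Finset.card_univ, Fintype.card_fin] at h1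
    have h0 : 0 ≤ ∑ k, a k ^ q := Finset.sum_nonneg (fun k _ => Real.rpow_nonneg (ha0 k) _)
    have h3 : ((∑ k, a k ^ q) ^ r) ^ q ≤ ((d : ℝ) ^ (r - 1) * ∑ k, a k) ^ q :=
      Real.rpow_le_rpow (Real.rpow_nonneg h0 _) h1 hq0.le
    rw [← Real.rpow_mul h0, hrq, Real.rpow_one,
      Real.mul_rpow (Real.rpow_nonneg hd0 _) hsum0, ← Real.rpow_mul hd0] at h3
    have h4 : (r - 1) * q = 1 - q := by rw [sub_mul, hrq]; ring
    rw [h4] at h3
    exact h3
  -- S5
  have hS5 : ∑ k, a k ≤ n * hi ^ 2 := by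
    have h1 : ∀ i, ∑ k, A i k ^ 2 ≤ hi ^ 2 := by
      intro i
      have h2 := sum_rpow_le_rpow_sum_aux (Finset.univ) (fun k => |A i k| ^ p)
        (fun k _ => Real.rpow_nonneg (abs_nonneg _) _) hr1.le
      simp only [habs] at h2
      have h0 : 0 ≤ ∑ k, |A i k| ^ p :=
        Finset.sum_nonneg (fun k _ => Real.rpow_nonneg (abs_nonneg _) _)
      have h3 : (∑ k, |A i k| ^ p) ^ r ≤ (hi ^ p) ^ r :=
        Real.rpow_le_rpow h0 (hA i) (by linarith)
      have h4 : (hi ^ p) ^ r = hi ^ 2 := by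
        rw [← Real.rpow_mul hhi.le, ← Real.rpow_natCast]; congr 1; rw [hr]; push_cast; field_simp
      rw [h4] at h3
      exact le_trans h2 h3
    have h5 : ∑ i, ∑ k, A i k ^ 2 ≤ ∑ _i : ι, hi ^ 2 := Finset.sum_le_sum (fun i _ => h1 i)
    rw [Finset.sum_const, Finset.card_univ, nsmul_eq_mul, Finset.sum_comm] at h5
    exact h5
  -- S6
  have h6 : n * lo ^ p ≤ (d : ℝ) ^ (1 - q) * (n * hi ^ 2) ^ q :=
    calc n * lo ^ p ≤ ∑ k, a k ^ q := hS3
      _ ≤ (d : ℝ) ^ (1 - q) * (∑ k, a k) ^ q := hS4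
      _ ≤ (d : ℝ) ^ (1 - q) * (n * hi ^ 2) ^ q :=
          mul_le_mul_of_nonneg_left (Real.rpow_le_rpow hsum0 hS5 hq0.le)
            (Real.rpow_nonneg hd0 _)
  have h7 : (n * hi ^ 2) ^ q = n ^ q * hi ^ p := by
    rw [Real.mul_rpow hn1.le (sq_nonneg hi)]
    have : (hi ^ 2) ^ q = hi ^ p := by
      rw [← Real.rpow_natCast, ← Real.rpow_mul hhi.le]; congr 1; rw [hq]; push_cast; ring
    rw [this]
  rw [h7] at h6
  have hhip : 0 < hi ^ p := Real.rpow_pos_of_pos hhi p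
  have hnq : 0 < n ^ q := Real.rpow_pos_of_pos hn1 q
  have hn_split : n = n ^ (1 - q) * n ^ q := by
    rw [← Real.rpow_add hn1]; simp
  have h8 : n ^ (1 - q) * (lo / hi) ^ p ≤ (d : ℝ) ^ (1 - q) := by
    rw [Real.div_rpow hlo.le hhi.le]
    rw [mul_div_assoc', div_le_iff₀ hhip]
    have : n ^ (1 - q) * lo ^ p * n ^ q ≤ (d : ℝ) ^ (1 - q) * hi ^ p * n ^ q := by
      calc n ^ (1 - q) * lo ^ p * n ^ q = (n ^ (1 - q) * n ^ q) * lo ^ p := by ring
        _ = n * lo ^ p := by rw [← hn_split]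
        _ ≤ (d : ℝ) ^ (1 - q) * (n ^ q * hi ^ p) := h6
        _ = (d : ℝ) ^ (1 - q) * hi ^ p * n ^ q := by ring
    exact le_of_mul_le_mul_right this hnq
  have hq10 : 0 < 1 - q := by linarith
  have hr0 : 0 < lo / hi := div_pos hlo hhi
  have h9 : (n ^ (1 - q) * (lo / hi) ^ p) ^ (1 / (1 - q)) ≤
      ((d : ℝ) ^ (1 - q)) ^ (1 / (1 - q)) :=
    Real.rpow_le_rpow (by positivity) h8 (by positivity)
  rw [← Real.rpow_mul hd0, mul_one_div_cancel hq10.ne', Real.rpow_one,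
    Real.mul_rpow (by positivity) (by positivity), ← Real.rpow_mul hn1.le,
    mul_one_div_cancel hq10.ne', Real.rpow_one, ← Real.rpow_mul hr0.le] at h9
  have h10 : p * (1 / (1 - q)) = 2 * p / (2 - p) := by
    rw [hq]; field_simp
  rw [h10] at h9
  exact h9

end Core

section Wrapper

theorem piLp_norm_rpow {κ : Type*} [Fintype κ] (p : ENNReal) (hpos : 0 < p.toReal)
    (f : PiLp p (fun _ : κ => ℝ)) : ‖f‖ ^ p.toReal = ∑ k, |f k| ^ p.toReal := by
  rw [PiLp.norm_eq_sum hpos, ← Real.rpow_mul (Finset.sum_nonneg (fun i _ =>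
    Real.rpow_nonneg (norm_nonneg _) _)), one_div, inv_mul_cancel₀ hpos.ne', Real.rpow_one]
  rfl

variable {ι : Type*} [Fintype ι] [DecidableEq ι]

theorem linear_lb_aux (W : ι → ι → ℝ) (hW1 : ∀ i j, |W i j| = 1)
    (hW2 : ∀ i i', ∑ j, W i j * W i' j = if i = i' then (Fintype.card ι : ℝ) else 0)
    (p : ENNReal) [Fact (1 ≤ p)] (hp : p ≠ ⊤) (hp2 : p ≠ 2) :
    ∃ S : Finset (PiLp p (fun _ : ι => ℝ)), S.card ≤ 2 * Fintype.card ι + 1 ∧
      (∀ x ∈ S, ‖x‖ ≤ 1) ∧
      ∀ r : ℝ, 0 < r → ∀ ε : ℝ, 0 < ε → ε < 1 → ∀ (d : ℕ)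
        (T : PiLp p (fun _ : ι => ℝ) →ₗ[ℝ] PiLp p (fun _ : Fin d => ℝ)),
        (∀ x ∈ S, ∀ y ∈ S, |‖T x - T y‖ ^ r - ‖x - y‖ ^ r| ≤ ε) →
        (Fintype.card ι : ℝ) *
          ((1 - ε) / (1 + ε)) ^ (2 * p.toReal / (r * |p.toReal - 2|)) ≤ d := by
  classical
  have hp0 : p ≠ 0 := (lt_of_lt_of_le zero_lt_one (Fact.out : 1 ≤ p)).ne'
  have hpos : 0 < p.toReal := ENNReal.toReal_pos hp0 hp
  have hpr2 : p.toReal ≠ 2 := by
    intro h
    apply hp2
    rw [← ENNReal.ofReal_toReal hp, h]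
    simp
  rcases isEmpty_or_nonempty ι with hι | hι
  · refine ⟨∅, by simp, by simp, ?_⟩
    intro r _ ε _ _ d T _
    rw [Fintype.card_eq_zero]
    simp
  have hnpos : 0 < Fintype.card ι := Fintype.card_pos
  set n : ℝ := (Fintype.card ι : ℝ) with hn
  have hn1 : 0 < n := by rw [hn]; exact_mod_cast hnpos
  set c : ℝ := (1 / n) ^ (1 / p.toReal) with hc
  have hc0 : 0 ≤ c := Real.rpow_nonneg (by positivity) _
  have hcp : c ^ p.toReal = 1 / n := by
    rw [hc, ← Real.rpow_mul (by positivity), one_div_mul_cancel hpos.ne', Real.rpow_one]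
  set E : ι → PiLp p (fun _ : ι => ℝ) := fun i => PiLp.single p i (1 : ℝ) with hE
  set Y : ι → PiLp p (fun _ : ι => ℝ) := fun j => WithLp.toLp p (fun i => c * W i j) with hY
  have hEn : ∀ i, ‖E i‖ = 1 := by
    intro i
    rw [hE]
    simp [PiLp.norm_single]
  have hYn : ∀ j, ‖Y j‖ = 1 := by
    intro j
    have h1 : ‖Y j‖ ^ p.toReal = 1 := by
      rw [piLp_norm_rpow p hpos]
      have h2 : ∀ i, |(Y j) i| ^ p.toReal = 1 / n := by
        intro i
        rw [hY]
        show |c * W i j| ^ p.toReal = 1 / n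
        rw [abs_mul, hW1, mul_one, abs_of_nonneg hc0, hcp]
      simp only [h2]
      rw [Finset.sum_const, Finset.card_univ, nsmul_eq_mul, ← hn]
      field_simp
    have h3 : ‖Y j‖ = (‖Y j‖ ^ p.toReal) ^ (1 / p.toReal) := by
      rw [← Real.rpow_mul (norm_nonneg _), mul_one_div_cancel hpos.ne', Real.rpow_one]
    rw [h3, h1, Real.one_rpow]
  have hYsum : ∀ j, Y j = ∑ i, (c * W i j) • E i := by
    intro j
    apply WithLp.ofLp_injective
    funext i'
    rw [WithLp.ofLp_sum, Finset.sum_apply]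
    simp only [hY, hE, WithLp.ofLp_smul, Pi.smul_apply, PiLp.ofLp_single, smul_eq_mul]
    rw [Finset.sum_eq_single i']
    · simp
    · intro b _ hb
      simp [Ne.symm hb]
    · intro h; exact absurd (Finset.mem_univ i') h
  refine ⟨insert 0 (Finset.univ.image E ∪ Finset.univ.image Y), ?_, ?_, ?_⟩
  · calc (insert 0 (Finset.univ.image E ∪ Finset.univ.image Y)).card
        ≤ (Finset.univ.image E ∪ Finset.univ.image Y).card + 1 := Finset.card_insert_le _ _
      _ ≤ (Finset.univ.image E).card + (Finset.univ.image Y).card + 1 :=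
          Nat.add_le_add_right (Finset.card_union_le _ _) 1
      _ ≤ Fintype.card ι + Fintype.card ι + 1 := by
          have h1 : (Finset.univ.image E).card ≤ Fintype.card ι := by
            rw [← Finset.card_univ]; exact Finset.card_image_le
          have h2 : (Finset.univ.image Y).card ≤ Fintype.card ι := by
            rw [← Finset.card_univ]; exact Finset.card_image_le
          omega
      _ = 2 * Fintype.card ι + 1 := by ring
  · intro x hx
    rcases Finset.mem_insert.mp hx with h | h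
    · rw [h]; simp
    · rcases Finset.mem_union.mp h with h | h
      · obtain ⟨i, _, rfl⟩ := Finset.mem_image.mp h
        exact (hEn i).le
      · obtain ⟨j, _, rfl⟩ := Finset.mem_image.mp h
        exact (hYn j).le
  · intro r hr ε hε0 hε1 d T hT
    have h0S : (0 : PiLp p (fun _ : ι => ℝ)) ∈
        insert 0 (Finset.univ.image E ∪ Finset.univ.image Y) := Finset.mem_insert_self _ _
    have hES : ∀ i, E i ∈ insert 0 (Finset.univ.image E ∪ Finset.univ.image Y) := fun i =>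
      Finset.mem_insert_of_mem (Finset.mem_union_left _
        (Finset.mem_image_of_mem E (Finset.mem_univ i)))
    have hYS : ∀ j, Y j ∈ insert 0 (Finset.univ.image E ∪ Finset.univ.image Y) := fun j =>
      Finset.mem_insert_of_mem (Finset.mem_union_right _
        (Finset.mem_image_of_mem Y (Finset.mem_univ j)))
    have hTE : ∀ i, |‖T (E i)‖ ^ r - 1| ≤ ε := by
      intro i
      have h := hT (E i) (hES i) 0 h0S
      rwa [map_zero, sub_zero, sub_zero, hEn i, Real.one_rpow] at h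
    have hTY : ∀ j, |‖T (Y j)‖ ^ r - 1| ≤ ε := by
      intro j
      have h := hT (Y j) (hYS j) 0 h0S
      rwa [map_zero, sub_zero, sub_zero, hYn j, Real.one_rpow] at h
    set A : ι → Fin d → ℝ := fun i k => (T (E i)) k with hA
    have hnormE : ∀ i, ‖T (E i)‖ ^ p.toReal = ∑ k, |A i k| ^ p.toReal := fun i =>
      piLp_norm_rpow p hpos _
    have hnormY : ∀ j, ‖T (Y j)‖ ^ p.toReal =
        (1 / n) * ∑ k, |∑ i, W i j * A i k| ^ p.toReal := by
      intro j
      rw [piLp_norm_rpow p hpos, Finset.mul_sum]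
      refine Finset.sum_congr rfl (fun k _ => ?_)
      have h1 : (T (Y j)) k = c * ∑ i, W i j * A i k := by
        rw [hYsum j, map_sum]
        rw [WithLp.ofLp_sum, Finset.sum_apply, Finset.mul_sum]
        refine Finset.sum_congr rfl (fun i _ => ?_)
        rw [map_smul]
        simp only [WithLp.ofLp_smul, Pi.smul_apply, smul_eq_mul, hA]
        ring
      rw [h1, abs_mul, Real.mul_rpow (abs_nonneg _) (abs_nonneg _), abs_of_nonneg hc0, hcp]
    have h1ε : 0 < 1 - ε := by linarith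
    have h2ε : 0 < 1 + ε := by linarith
    set lo : ℝ := (1 - ε) ^ (1 / r) with hlo_def
    set hi : ℝ := (1 + ε) ^ (1 / r) with hhi_def
    have hlo : 0 < lo := Real.rpow_pos_of_pos h1ε _
    have hhi : 0 < hi := Real.rpow_pos_of_pos h2ε _
    have hroot : ∀ z : ℝ, 0 ≤ z → (z ^ r) ^ (1 / r) = z := by
      intro z hz
      rw [← Real.rpow_mul hz, mul_one_div_cancel hr.ne', Real.rpow_one]
    have hlo_le : ∀ z : ℝ, 0 ≤ z → |z ^ r - 1| ≤ ε → lo ≤ z := by
      intro z hz h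
      have h' := abs_le.mp h
      have h3 : (1 - ε) ^ (1 / r) ≤ (z ^ r) ^ (1 / r) :=
        Real.rpow_le_rpow h1ε.le (by linarith) (by positivity)
      rwa [hroot z hz] at h3
    have hhi_le : ∀ z : ℝ, 0 ≤ z → |z ^ r - 1| ≤ ε → z ≤ hi := by
      intro z hz h
      have h' := abs_le.mp h
      have h3 : (z ^ r) ^ (1 / r) ≤ (1 + ε) ^ (1 / r) :=
        Real.rpow_le_rpow (Real.rpow_nonneg hz _) (by linarith) (by positivity)
      rwa [hroot z hz] at h3
    have hElo : ∀ i, lo ≤ ‖T (E i)‖ := fun i => hlo_le _ (norm_nonneg _) (hTE i)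
    have hEhi : ∀ i, ‖T (E i)‖ ≤ hi := fun i => hhi_le _ (norm_nonneg _) (hTE i)
    have hYlo : ∀ j, lo ≤ ‖T (Y j)‖ := fun j => hlo_le _ (norm_nonneg _) (hTY j)
    have hYhi : ∀ j, ‖T (Y j)‖ ≤ hi := fun j => hhi_le _ (norm_nonneg _) (hTY j)
    have hratio : ∀ e : ℝ, ((1 - ε) / (1 + ε)) ^ (e / r) = (lo / hi) ^ e := by
      intro e
      rw [hlo_def, hhi_def, ← Real.div_rpow h1ε.le h2ε.le,
        ← Real.rpow_mul (div_nonneg h1ε.le h2ε.le)]
      congr 1; ring
    have hexp : 2 * p.toReal / (r * |p.toReal - 2|) = (2 * p.toReal / |p.toReal - 2|) / r := by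
      rw [div_div, mul_comm r]
    rw [hexp, hratio]
    rcases lt_or_gt_of_ne hpr2 with hlt | hgt
    · have habs : |p.toReal - 2| = 2 - p.toReal := by
        rw [abs_of_neg (by linarith)]; ring
      rw [habs]
      refine core_lt W hW2 p.toReal hpos hlt d A lo hi hlo hhi ?_ ?_
      · intro i
        rw [← hnormE i]
        exact Real.rpow_le_rpow (norm_nonneg _) (hEhi i) hpos.le
      · intro j
        rw [← hnormY j]
        exact Real.rpow_le_rpow hlo.le (hYlo j) hpos.le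
    · have habs : |p.toReal - 2| = p.toReal - 2 := abs_of_pos (by linarith)
      rw [habs]
      refine core_gt W hW2 p.toReal hgt d A lo hi hlo hhi ?_ ?_
      · intro i
        rw [← hnormE i]
        exact Real.rpow_le_rpow hlo.le (hElo i) hpos.le
      · intro j
        rw [← hnormY j]
        exact Real.rpow_le_rpow (norm_nonneg _) (hYhi j) hpos.le

end Wrapper

/-- Linear `ε`-isometric dimension reduction of the unit ball of `ℓ_p`, `p ≠ 2`, is impossible:
the dimension must be proportional to the number of points. -/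
theorem linear_lb (p : ENNReal) [Fact (1 ≤ p)] (hp : p ≠ ⊤) (hp2 : p ≠ 2) (k : ℕ) :
    ∃ S : Finset (PiLp p (fun _ : Fin (2 ^ k) => ℝ)), S.card ≤ 2 * 2 ^ k + 1 ∧
      (∀ x ∈ S, ‖x‖ ≤ 1) ∧
      ∀ r : ℝ, 0 < r → ∀ ε : ℝ, 0 < ε → ε < 1 → ∀ (d : ℕ)
        (T : PiLp p (fun _ : Fin (2 ^ k) => ℝ) →ₗ[ℝ] PiLp p (fun _ : Fin d => ℝ)),
        (∀ x ∈ S, ∀ y ∈ S, |‖T x - T y‖ ^ r - ‖x - y‖ ^ r| ≤ ε) →
        (2 : ℝ) ^ k * ((1 - ε) / (1 + ε)) ^ (2 * p.toReal / (r * |p.toReal - 2|)) ≤ d := by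
  classical
  have hcard : Fintype.card (Fin k → Bool) = 2 ^ k := by simp
  set e : Fin (2 ^ k) ≃ (Fin k → Bool) := (Fintype.equivFinOfCardEq hcard).symm with he
  have hW2 : ∀ i i' : Fin (2 ^ k), ∑ j, walsh k (e i) (e j) * walsh k (e i') (e j) =
      if i = i' then (Fintype.card (Fin (2 ^ k)) : ℝ) else 0 := by
    intro i i'
    rw [Equiv.sum_comp e (fun t => walsh k (e i) t * walsh k (e i') t), walsh_orth]
    by_cases h : i = i'
    · subst h; simp
    · rw [if_neg h, if_neg (fun h' => h (e.injective h'))]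
  obtain ⟨S, h1, h2, h3⟩ := linear_lb_aux (fun i j => walsh k (e i) (e j))
    (fun i j => walsh_abs k _ _) hW2 p hp hp2
  refine ⟨S, ?_, h2, ?_⟩
  · simpa using h1
  · intro r hr ε hε0 hε1 d T hT
    have := h3 r hr ε hε0 hε1 d T hT
    simpa using this

end Vale.Agent.H67
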