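import Mathlib
import Vale.Agent.H67.Energy
import Vale.Agent.H67.HopSpanner

/-!
Dimension reduction for finite subsets of `L_p` into `ℓ_p^d` with
`d ≤ C(p, D) * n * (log n) ^ p`.
-/

namespace Vale.Agent.H67

open MeasureTheory

universe u

/-- From an energy domination to an embedding into `ℓ_p^d` with distortion `D`. -/
theorem embed_of_energy (P : ENNReal) [hP1 : Fact (1 ≤ P)] (hP : P ≠ ⊤) (D : ℝ) (hD : 1 < D)
    {Ω : Type*} [MeasurableSpace Ω] (μ : Measure Ω) (X : Finset (Lp ℝ P μ))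
    (H : Finset (Lp ℝ P μ × Lp ℝ P μ)) (K0 : ℝ) (hK0 : 0 ≤ K0)
    (hHdom : ∀ ω, ∀ u ∈ X, ∀ v ∈ X, |u ω - v ω| ^ P.toReal ≤ K0 * ‖u - v‖ ^ P.toReal *
      ∑ h ∈ H, |h.1 ω - h.2 ω| ^ P.toReal / ‖h.1 - h.2‖ ^ P.toReal)
    (hX : 2 ≤ X.card) :
    ∃ (d : ℕ) (f : Lp ℝ P μ → PiLp P (fun _ : Fin d => ℝ)) (s : ℝ),
      (d : ℝ) ≤ 4 * (K0 * H.card) * Real.log (2 * (X.card : ℝ) ^ 2) /
        ((D ^ P.toReal - 1) / (D ^ P.toReal + 1)) ^ 2 + 1 ∧ 0 < s ∧
      ∀ x ∈ X, ∀ y ∈ X, s * ‖x - y‖ ≤ ‖f x - f y‖ ∧ ‖f x - f y‖ ≤ D * s * ‖x - y‖ := by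
  have hP0 : P ≠ 0 := (lt_of_lt_of_le zero_lt_one hP1.out).ne'
  have hpos : 0 < P.toReal := ENNReal.toReal_pos hP0 hP
  set p := P.toReal with hp
  have hDp : 1 < D ^ p := Real.one_lt_rpow hD hpos
  set ε := (D ^ p - 1) / (D ^ p + 1) with hε
  have hε0 : 0 < ε := div_pos (by linarith) (by linarith)
  have hε1 : ε < 1 := by rw [hε, div_lt_one (by linarith)]; linarith
  have hεD : 1 + ε = D ^ p * (1 - ε) := by rw [hε]; field_simp; ring
  set n := X.card with hn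
  have hn2 : (2:ℝ) ≤ n := by exact_mod_cast hX
  set Z : ℝ := 4 * (K0 * H.card) * Real.log (2 * (n : ℝ) ^ 2) / ε ^ 2 with hZ
  have hlog0 : 0 ≤ Real.log (2 * (n : ℝ) ^ 2) := Real.log_nonneg (by nlinarith)
  have hZ0 : 0 ≤ Z := by rw [hZ]; positivity
  set N := ⌊Z⌋₊ + 1 with hN
  have hNlt : 4 * (K0 * H.card) * Real.log (2 * (n : ℝ) ^ 2) < N * ε ^ 2 := by
    have h1 := Nat.lt_floor_add_one Z
    have h2 : Z < (N : ℝ) := by rw [hN]; push_cast; exact h1
    rw [hZ, div_lt_iff₀ (by positivity)] at h2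
    exact h2
  obtain ⟨ω, w, hw0, hwX⟩ := embed_coreK hP X H K0 hK0 hHdom ε hε0 hε1.le N hX hNlt
  refine ⟨N, fun x => WithLp.toLp P (fun l => (w l) ^ (1 / p) * x (ω l)),
    (1 - ε) ^ (1 / p), ?_, ?_, ?_⟩
  · rw [hN]; push_cast
    linarith [Nat.floor_le hZ0]
  · exact Real.rpow_pos_of_pos (by linarith) _
  · intro x hx y hy
    obtain ⟨h1, h2⟩ := hwX x hx y hy
    have hnorm : ‖(WithLp.toLp P (fun l => (w l) ^ (1 / p) * x (ω l)) :
        PiLp P (fun _ : Fin N => ℝ)) - WithLp.toLp P (fun l => (w l) ^ (1 / p) * y (ω l))‖ ^ p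
        = ∑ l, w l * |x (ω l) - y (ω l)| ^ p := by
      rw [PiLp.norm_eq_sum hpos, ← Real.rpow_mul (Finset.sum_nonneg (fun i _ =>
        Real.rpow_nonneg (norm_nonneg _) _)), one_div, inv_mul_cancel₀ hpos.ne', Real.rpow_one]
      refine Finset.sum_congr rfl (fun l _ => ?_)
      simp only [WithLp.ofLp_sub, Pi.sub_apply, ← hp]
      rw [← mul_sub, Real.norm_eq_abs, abs_mul, Real.mul_rpow (abs_nonneg _) (abs_nonneg _),
        abs_of_nonneg (Real.rpow_nonneg (hw0 l) _), ← Real.rpow_mul (hw0 l),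
        inv_mul_cancel₀ hpos.ne', Real.rpow_one]
    set Bn := ‖(WithLp.toLp P (fun l => (w l) ^ (1 / p) * x (ω l)) :
        PiLp P (fun _ : Fin N => ℝ)) - WithLp.toLp P (fun l => (w l) ^ (1 / p) * y (ω l))‖
      with hBn
    have hBn0 : 0 ≤ Bn := norm_nonneg _
    have hA0 : 0 ≤ ‖x - y‖ := norm_nonneg _
    have h1ε : 0 < 1 - ε := by linarith
    have hs0 : 0 ≤ (1 - ε) ^ (1 / p) := Real.rpow_nonneg h1ε.le _
    have hsp : ((1 - ε) ^ (1 / p)) ^ p = 1 - ε := by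
      rw [← Real.rpow_mul h1ε.le, one_div, inv_mul_cancel₀ hpos.ne', Real.rpow_one]
    rw [← hnorm] at h1 h2
    constructor
    · have h3 : ((1 - ε) ^ (1 / p) * ‖x - y‖) ^ p ≤ Bn ^ p := by
        rw [Real.mul_rpow hs0 hA0, hsp]; exact h1
      exact (Real.rpow_le_rpow_iff (mul_nonneg hs0 hA0) hBn0 hpos).mp h3
    · have hD0 : 0 ≤ D := by linarith
      have h3 : Bn ^ p ≤ (D * (1 - ε) ^ (1 / p) * ‖x - y‖) ^ p := by
        rw [Real.mul_rpow (mul_nonneg hD0 hs0) hA0, Real.mul_rpow hD0 hs0, hsp, ← hεD]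
        exact h2
      exact (Real.rpow_le_rpow_iff hBn0 (mul_nonneg (mul_nonneg hD0 hs0) hA0) hpos).mp h3


/-- Dimension reduction for finite subsets of `L_p` with `d ≤ C(p, D) * n * (log n) ^ p`. -/
theorem log_power_p (P : ENNReal) [hP1 : Fact (1 ≤ P)] (hP : P ≠ ⊤) (D : ℝ) (hD : 1 < D) :
    ∃ C : ℝ, ∀ (Ω : Type u) [MeasurableSpace Ω] (μ : Measure Ω) (X : Finset (Lp ℝ P μ)),
      ∃ (d : ℕ) (f : Lp ℝ P μ → PiLp P (fun _ : Fin d => ℝ)) (s : ℝ),
        (d : ℝ) ≤ C * (X.card : ℝ) * Real.log (X.card : ℝ) ^ P.toReal ∧ 0 < s ∧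
        ∀ x ∈ X, ∀ y ∈ X, s * ‖x - y‖ ≤ ‖f x - f y‖ ∧ ‖f x - f y‖ ≤ D * s * ‖x - y‖ := by
  have hP0 : P ≠ 0 := (lt_of_lt_of_le zero_lt_one hP1.out).ne'
  have hpos : 0 < P.toReal := ENNReal.toReal_pos hP0 hP
  have hp1 : 1 ≤ P.toReal := by
    have h := ENNReal.toReal_mono hP hP1.out
    simpa using h
  set p := P.toReal with hp
  have hDp : 1 < D ^ p := Real.one_lt_rpow hD hpos
  set ε := (D ^ p - 1) / (D ^ p + 1) with hε
  have hε0 : 0 < ε := div_pos (by linarith) (by linarith)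
  have hlog2 : (0:ℝ) < Real.log 2 := Real.log_pos (by norm_num)
  have hlog2' : (1:ℝ) / 2 < Real.log 2 := by
    have := Real.log_two_gt_d9
    linarith
  set C1 : ℝ := 36 * (4:ℝ) ^ (p - 1) / ε ^ 2 with hC1
  set C2 : ℝ := 1 / Real.log 2 ^ p with hC2
  have hC10 : 0 ≤ C1 := by rw [hC1]; positivity
  have hC20 : 0 ≤ C2 := by rw [hC2]; positivity
  refine ⟨C1 + C2, ?_⟩
  intro Ω _ μ X
  classical
  by_cases hX : X.card < 2
  · refine ⟨0, fun _ => 0, 1, ?_, one_pos, ?_⟩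
    · have h1 : (0:ℝ) ≤ Real.log (X.card : ℝ) := Real.log_natCast_nonneg _
      have h2 : (0:ℝ) ≤ Real.log (X.card : ℝ) ^ p := Real.rpow_nonneg h1 _
      simp only [Nat.cast_zero]
      exact mul_nonneg (mul_nonneg (by linarith) (Nat.cast_nonneg _)) h2
    · intro x hx y hy
      have hxy : x = y := Finset.card_le_one.mp (by omega) x hx y hy
      subst hxy; simp
  · rw [not_lt] at hX
    set n := X.card with hn
    have hn2 : (2:ℝ) ≤ n := by exact_mod_cast hX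
    have hn0 : (0:ℝ) < n := by linarith
    have hlogn : Real.log 2 ≤ Real.log n := Real.log_le_log (by norm_num) hn2
    have hlogn0 : 0 < Real.log n := lt_of_lt_of_le hlog2 hlogn
    set k := Nat.log 3 n + 1 with hk
    have hcard : Fintype.card X = n := Fintype.card_coe X
    have hnk : Fintype.card X < 3 ^ k := by
      rw [hcard, hk]; exact Nat.lt_pow_succ_log_self (by norm_num) n
    obtain ⟨E, hEcard, hEwalk⟩ := exists_spanner_hops (V := X)
      (fun u v => dist (u : Lp ℝ P μ) (v : Lp ℝ P μ))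
      (fun u v => dist_comm _ _) k 3 (by omega) hnk
    obtain ⟨H, hHcard, hHen⟩ := energy_of_walks X E (2 * k - 1) hEwalk p hp1
    have hk1 : (1:ℝ) ≤ k := by
      rw [hk]; push_cast; linarith [Nat.cast_nonneg (α := ℝ) (Nat.log 3 n)]
    have hcast : ((2 * k - 1 : ℕ) : ℝ) = 2 * (k : ℝ) - 1 := by
      rw [Nat.cast_sub (by omega)]; push_cast; ring
    have hσ0 : (0:ℝ) ≤ 2 * (k : ℝ) - 1 := by linarith
    set K0 : ℝ := ((2 * k - 1 : ℕ) : ℝ) ^ (p - 1) with hK0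
    have hK0nn : 0 ≤ K0 := Real.rpow_nonneg (Nat.cast_nonneg _) _
    have hdom : ∀ ω, ∀ u ∈ X, ∀ v ∈ X, |u ω - v ω| ^ P.toReal ≤ K0 * ‖u - v‖ ^ P.toReal *
        ∑ h ∈ H, |h.1 ω - h.2 ω| ^ P.toReal / ‖h.1 - h.2‖ ^ P.toReal := by
      intro ω u hu v hv
      have h1 := hHen (fun x => (x : Ω → ℝ) ω) u hu v hv
      simp only [dist_eq_norm] at h1
      exact h1
    obtain ⟨d, f, s, hd, hs, hdist⟩ := embed_of_energy P hP D hD μ X H K0 hK0nn hdom hX
    refine ⟨d, f, s, ?_, hs, hdist⟩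
    -- the dimension bound
    have hlog3 : (1:ℝ) ≤ Real.log 3 := by
      rw [Real.le_log_iff_exp_le (by norm_num)]
      have := Real.exp_one_lt_d9
      linarith
    have hnatlog : (Nat.log 3 n : ℝ) ≤ Real.log n := by
      have h1 : 3 ^ Nat.log 3 n ≤ n := Nat.pow_log_le_self 3 (by omega)
      have h2 : ((3:ℝ) ^ Nat.log 3 n) ≤ n := by exact_mod_cast h1
      have h3 : Real.log ((3:ℝ) ^ Nat.log 3 n) ≤ Real.log n :=
        Real.log_le_log (by positivity) h2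
      rw [Real.log_pow] at h3
      have h4 : (0:ℝ) ≤ Nat.log 3 n := Nat.cast_nonneg _
      nlinarith
    have hσle : 2 * (k : ℝ) - 1 ≤ 4 * Real.log n := by
      rw [hk]; push_cast
      linarith
    have hK0le : K0 ≤ (4:ℝ) ^ (p - 1) * Real.log n ^ (p - 1) := by
      rw [hK0, hcast, ← Real.mul_rpow (by norm_num) hlogn0.le]
      exact Real.rpow_le_rpow hσ0 hσle (by linarith)
    have hHle : (H.card : ℝ) ≤ 3 * n := by
      have h1 : H.card ≤ n * 3 := by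
        have := le_trans hHcard hEcard
        rwa [hcard] at this
      have h2 : (H.card : ℝ) ≤ (n : ℝ) * 3 := by exact_mod_cast h1
      linarith
    have hlog2n : Real.log (2 * (n : ℝ) ^ 2) ≤ 3 * Real.log n := by
      have h1 : Real.log (2 * (n : ℝ) ^ 2) ≤ Real.log ((n : ℝ) ^ 3) :=
        Real.log_le_log (by positivity) (by nlinarith)
      rw [Real.log_pow] at h1
      push_cast at h1
      exact h1
    have hlog2n0 : 0 ≤ Real.log (2 * (n : ℝ) ^ 2) := Real.log_nonneg (by nlinarith)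
    have hpow1 : Real.log n ^ (p - 1) * Real.log n = Real.log n ^ p := by
      rw [Real.rpow_sub_one hlogn0.ne']
      field_simp
    have hlp0 : 0 ≤ Real.log n ^ (p - 1) := Real.rpow_nonneg hlogn0.le _
    have h4p : (0:ℝ) ≤ (4:ℝ) ^ (p - 1) := Real.rpow_nonneg (by norm_num) _
    have hmain : 4 * (K0 * H.card) * Real.log (2 * (n : ℝ) ^ 2) / ε ^ 2 ≤
        C1 * n * Real.log n ^ p := by
      have h1 : K0 * H.card ≤ (4:ℝ) ^ (p - 1) * Real.log n ^ (p - 1) * (3 * n) :=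
        mul_le_mul hK0le hHle (Nat.cast_nonneg _) (mul_nonneg h4p hlp0)
      have h2 : K0 * H.card * Real.log (2 * (n : ℝ) ^ 2) ≤
          (4:ℝ) ^ (p - 1) * Real.log n ^ (p - 1) * (3 * n) * (3 * Real.log n) :=
        mul_le_mul h1 hlog2n hlog2n0 (by positivity)
      have h3 : 4 * (K0 * H.card) * Real.log (2 * (n : ℝ) ^ 2) / ε ^ 2 ≤
          4 * ((4:ℝ) ^ (p - 1) * Real.log n ^ (p - 1) * (3 * n) * (3 * Real.log n)) / ε ^ 2 := by
        apply div_le_div_of_nonneg_right _ (by positivity)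
        linarith
      have h4 : 4 * ((4:ℝ) ^ (p - 1) * Real.log n ^ (p - 1) * (3 * n) * (3 * Real.log n)) / ε ^ 2 =
          C1 * n * Real.log n ^ p := by
        rw [← hpow1, hC1]; field_simp; ring
      rw [h4] at h3; exact h3
    have hone : (1:ℝ) ≤ C2 * n * Real.log n ^ p := by
      have h1 : Real.log 2 ^ p ≤ Real.log n ^ p :=
        Real.rpow_le_rpow hlog2.le hlogn (by linarith)
      have h2 : 0 < Real.log 2 ^ p := Real.rpow_pos_of_pos hlog2 _
      have h3 : C2 * n * Real.log n ^ p = n * (Real.log n ^ p / Real.log 2 ^ p) := by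
        rw [hC2]; field_simp
      rw [h3]
      have h4 : 1 ≤ Real.log n ^ p / Real.log 2 ^ p := by
        rw [le_div_iff₀ h2]; linarith
      nlinarith
    calc (d : ℝ) ≤ 4 * (K0 * H.card) * Real.log (2 * (n : ℝ) ^ 2) /
          ((D ^ p - 1) / (D ^ p + 1)) ^ 2 + 1 := hd
      _ ≤ C1 * n * Real.log n ^ p + C2 * n * Real.log n ^ p := by
          have := hmain
          linarith
      _ = (C1 + C2) * n * Real.log n ^ p := by ring

end Vale.Agent.H67
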