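import Mathlib
import Vale.Agent.H67.LpEmbed

/-!
Near-linear dimension reduction for finite subsets of `L_p`.
-/

namespace Vale.Agent.H67

open MeasureTheory

universe u

theorem near_linear (P : ENNReal) [hP1 : Fact (1 ≤ P)] (hP : P ≠ ⊤) (δ D : ℝ) (hδ : 0 < δ)
    (hD : 1 < D) :
    ∃ C : ℝ, ∀ (Ω : Type u) [MeasurableSpace Ω] (μ : Measure Ω) (X : Finset (Lp ℝ P μ)),
      ∃ (d : ℕ) (f : Lp ℝ P μ → PiLp P (fun _ : Fin d => ℝ)) (s : ℝ),
        (d : ℝ) ≤ C * (X.card : ℝ) ^ (1 + δ) ∧ 0 < s ∧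
        ∀ x ∈ X, ∀ y ∈ X, s * ‖x - y‖ ≤ ‖f x - f y‖ ∧ ‖f x - f y‖ ≤ D * s * ‖x - y‖ := by
  have hP0 : P ≠ 0 := (lt_of_lt_of_le zero_lt_one hP1.out).ne'
  have hpos : 0 < P.toReal := ENNReal.toReal_pos hP0 hP
  set p := P.toReal with hp
  have hDp : 1 < D ^ p := Real.one_lt_rpow hD hpos
  set ε := (D ^ p - 1) / (D ^ p + 1) with hε
  have hε0 : 0 < ε := div_pos (by linarith) (by linarith)
  have hε1 : ε < 1 := by rw [hε, div_lt_one (by linarith)]; linarith
  have hεD : 1 + ε = D ^ p * (1 - ε) := by rw [hε]; field_simp; ring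
  obtain ⟨q, hq⟩ : ∃ q : ℕ, 2 / δ < (q : ℝ) + 1 :=
    ⟨⌈2 / δ⌉₊, by have := Nat.le_ceil (2 / δ); linarith⟩
  have hq1 : (0:ℝ) < (q : ℝ) + 1 := by positivity
  have hqδ : 1 / ((q : ℝ) + 1) ≤ δ / 2 := by
    rw [div_le_div_iff₀ hq1 (by norm_num)]
    rw [div_lt_iff₀ hδ] at hq
    linarith
  set σ : ℝ := 2 * 5 ^ q - 1 with hσ
  have hσ0 : 0 ≤ σ := by
    have : (1:ℝ) ≤ 5 ^ q := one_le_pow₀ (by norm_num)
    rw [hσ]; linarith
  have hσp : 0 ≤ σ ^ p := Real.rpow_nonneg hσ0 _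
  set C0 : ℝ := 96 * σ ^ p * ((q : ℝ) + 1) / (δ * ε ^ 2) with hC0
  have hC00 : 0 ≤ C0 := by rw [hC0]; positivity
  refine ⟨C0 + 1, ?_⟩
  intro Ω _ μ X
  classical
  by_cases hX : X.card < 2
  · refine ⟨0, fun _ => 0, 1, ?_, one_pos, ?_⟩
    · have : (0:ℝ) ≤ (X.card : ℝ) ^ (1 + δ) := Real.rpow_nonneg (Nat.cast_nonneg _) _
      simp only [Nat.cast_zero]
      exact mul_nonneg (by linarith) this
    · intro x hx y hy
      have hxy : x = y := Finset.card_le_one.mp (by omega) x hx y hy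
      subst hxy; simp
  · rw [not_lt] at hX
    set n := X.card with hn
    have hn2 : (2:ℝ) ≤ n := by exact_mod_cast hX
    have hn0 : (0:ℝ) < n := by linarith
    have hn1 : (1:ℝ) ≤ n := by linarith
    set r : ℝ := (n : ℝ) ^ (1 / ((q : ℝ) + 1)) with hr
    have hr1 : 1 ≤ r := Real.one_le_rpow hn1 (by positivity)
    set s := ⌈r⌉₊ with hs
    have hs1 : 1 ≤ s := Nat.one_le_iff_ne_zero.mpr (Nat.ceil_pos.mpr (by linarith)).ne'
    have hsr : r ≤ s := Nat.le_ceil r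
    have hs2 : (s : ℝ) ≤ 2 * r := by
      have := Nat.ceil_lt_add_one (by linarith : 0 ≤ r)
      linarith
    have hns : n ≤ s ^ (q + 1) := by
      have h1 : (n : ℝ) ≤ (s : ℝ) ^ (q + 1) := by
        calc (n : ℝ) = r ^ (((q + 1 : ℕ) : ℝ)) := by
              rw [hr, ← Real.rpow_mul hn0.le]
              push_cast
              rw [one_div, inv_mul_cancel₀ hq1.ne', Real.rpow_one]
          _ = r ^ (q + 1) := Real.rpow_natCast r (q + 1)
          _ ≤ (s : ℝ) ^ (q + 1) := pow_le_pow_left₀ (by linarith) hsr _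
      exact_mod_cast h1
    obtain ⟨H, hHsub, hHcard, hHdom⟩ := exists_spanner s hs1 q X hns
    set Z : ℝ := 4 * (σ ^ p * H.card) * Real.log (2 * (n : ℝ) ^ 2) / ε ^ 2 with hZ
    have hlog0 : 0 ≤ Real.log (2 * (n : ℝ) ^ 2) := Real.log_nonneg (by nlinarith)
    have hZ0 : 0 ≤ Z := by rw [hZ]; positivity
    set N := ⌊Z⌋₊ + 1 with hN
    have hNlt : 4 * (σ ^ p * H.card) * Real.log (2 * (n : ℝ) ^ 2) < N * ε ^ 2 := by
      have h1 := Nat.lt_floor_add_one Z
      have h2 : Z < (N : ℝ) := by rw [hN]; push_cast; exact h1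
      rw [hZ, div_lt_iff₀ (by positivity)] at h2
      exact h2
    obtain ⟨ω, w, hw0, hwX⟩ := embed_core hP X H σ hσ0 hHdom ε hε0 hε1.le N hX hNlt
    refine ⟨N, fun x => WithLp.toLp P (fun l => (w l) ^ (1 / p) * x (ω l)),
      (1 - ε) ^ (1 / p), ?_, ?_, ?_⟩
    · -- the dimension bound
      have hNle : (N : ℝ) ≤ Z + 1 := by
        rw [hN]; push_cast
        linarith [Nat.floor_le hZ0]
      have hHle : (H.card : ℝ) ≤ 4 * ((q : ℝ) + 1) * r * n := by
        have h1 : (H.card : ℝ) ≤ 2 * ((q : ℝ) + 1) * s * n := by exact_mod_cast hHcard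
        have h2 : 2 * ((q : ℝ) + 1) * s * n ≤ 2 * ((q : ℝ) + 1) * (2 * r) * n := by
          gcongr
        linarith
      have hloglt : Real.log (2 * (n : ℝ) ^ 2) ≤ 6 * (n : ℝ) ^ (δ / 2) / δ := by
        have h1 : Real.log (2 * (n : ℝ) ^ 2) ≤ Real.log ((n : ℝ) ^ 3) :=
          Real.log_le_log (by positivity) (by nlinarith)
        have h2 : Real.log ((n : ℝ) ^ 3) = 3 * Real.log n := by
          rw [Real.log_pow]; norm_num
        have h3 : Real.log n ≤ (n : ℝ) ^ (δ / 2) / (δ / 2) :=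
          Real.log_le_rpow_div hn0.le (by positivity)
        have h4 : (n : ℝ) ^ (δ / 2) / (δ / 2) = 2 * (n : ℝ) ^ (δ / 2) / δ := by
          field_simp
        rw [h4] at h3
        rw [h2] at h1
        have h5 : 3 * (2 * (n : ℝ) ^ (δ / 2) / δ) = 6 * (n : ℝ) ^ (δ / 2) / δ := by ring
        linarith
      have hpow : r * n * (n : ℝ) ^ (δ / 2) ≤ (n : ℝ) ^ (1 + δ) := by
        have h1 : r * n * (n : ℝ) ^ (δ / 2) = (n : ℝ) ^ (1 / ((q : ℝ) + 1) + 1 + δ / 2) := by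
          rw [Real.rpow_add hn0, Real.rpow_add hn0, Real.rpow_one]
        rw [h1]
        exact Real.rpow_le_rpow_of_exponent_le hn1 (by linarith)
      have hone : (1:ℝ) ≤ (n : ℝ) ^ (1 + δ) := Real.one_le_rpow hn1 (by linarith)
      have hnd0 : 0 ≤ (n : ℝ) ^ (δ / 2) := Real.rpow_nonneg hn0.le _
      have hZle : Z ≤ C0 * (n : ℝ) ^ (1 + δ) := by
        have h1 : σ ^ p * H.card * Real.log (2 * (n : ℝ) ^ 2) ≤
            σ ^ p * (4 * ((q : ℝ) + 1) * r * n) * (6 * (n : ℝ) ^ (δ / 2) / δ) := by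
          apply mul_le_mul (mul_le_mul_of_nonneg_left hHle hσp) hloglt hlog0
          positivity
        have h2 : Z ≤ 4 * (σ ^ p * (4 * ((q : ℝ) + 1) * r * n) *
            (6 * (n : ℝ) ^ (δ / 2) / δ)) / ε ^ 2 := by
          rw [hZ]
          apply div_le_div_of_nonneg_right _ (by positivity)
          linarith
        have h3 : 4 * (σ ^ p * (4 * ((q : ℝ) + 1) * r * n) *
            (6 * (n : ℝ) ^ (δ / 2) / δ)) / ε ^ 2 = C0 * (r * n * (n : ℝ) ^ (δ / 2)) := by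
          rw [hC0]; field_simp; ring
        rw [h3] at h2
        exact le_trans h2 (mul_le_mul_of_nonneg_left hpow hC00)
      calc (N : ℝ) ≤ Z + 1 := hNle
        _ ≤ C0 * (n : ℝ) ^ (1 + δ) + (n : ℝ) ^ (1 + δ) := by linarith
        _ = (C0 + 1) * (n : ℝ) ^ (1 + δ) := by ring
    · exact Real.rpow_pos_of_pos (by linarith) _
    · intro x hx y hy
      obtain ⟨h1, h2⟩ := hwX x hx y hy
      have hnorm : ‖(WithLp.toLp P (fun l => (w l) ^ (1 / p) * x (ω l)) :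
          PiLp P (fun _ : Fin N => ℝ)) - WithLp.toLp P (fun l => (w l) ^ (1 / p) * y (ω l))‖ ^ p
          = ∑ l, w l * |x (ω l) - y (ω l)| ^ p := by
        rw [PiLp.norm_eq_sum hpos, ← Real.rpow_mul (Finset.sum_nonneg (fun i _ =>
          Real.rpow_nonneg (norm_nonneg _) _)), one_div, inv_mul_cancel₀ hpos.ne', Real.rpow_one]
        refine Finset.sum_congr rfl (fun l _ => ?_)
        simp only [WithLp.ofLp_sub, Pi.sub_apply, ← hp]
        rw [← mul_sub, Real.norm_eq_abs, abs_mul, Real.mul_rpow (abs_nonneg _) (abs_nonneg _),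
          abs_of_nonneg (Real.rpow_nonneg (hw0 l) _), ← Real.rpow_mul (hw0 l),
          inv_mul_cancel₀ hpos.ne', Real.rpow_one]
      set Bn := ‖(WithLp.toLp P (fun l => (w l) ^ (1 / p) * x (ω l)) :
          PiLp P (fun _ : Fin N => ℝ)) - WithLp.toLp P (fun l => (w l) ^ (1 / p) * y (ω l))‖
        with hBn
      have hBn0 : 0 ≤ Bn := norm_nonneg _
      have hA0 : 0 ≤ ‖x - y‖ := norm_nonneg _
      have h1ε : 0 < 1 - ε := by linarith
      have hs0 : 0 ≤ (1 - ε) ^ (1 / p) := Real.rpow_nonneg h1ε.le _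
      have hsp : ((1 - ε) ^ (1 / p)) ^ p = 1 - ε := by
        rw [← Real.rpow_mul h1ε.le, one_div, inv_mul_cancel₀ hpos.ne', Real.rpow_one]
      rw [← hnorm] at h1 h2
      constructor
      · have h3 : ((1 - ε) ^ (1 / p) * ‖x - y‖) ^ p ≤ Bn ^ p := by
          rw [Real.mul_rpow hs0 hA0, hsp]; exact h1
        exact (Real.rpow_le_rpow_iff (mul_nonneg hs0 hA0) hBn0 hpos).mp h3
      · have hD0 : 0 ≤ D := by linarith
        have h3 : Bn ^ p ≤ (D * (1 - ε) ^ (1 / p) * ‖x - y‖) ^ p := by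
          rw [Real.mul_rpow (mul_nonneg hD0 hs0) hA0, Real.mul_rpow hD0 hs0, hsp, ← hεD]
          exact h2
        exact (Real.rpow_le_rpow_iff hBn0 (mul_nonneg (mul_nonneg hD0 hs0) hA0) hpos).mp h3

end Vale.Agent.H67
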