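import Mathlib
import Vale.Agent.H67.LpEmbed

/-!
Quasi-linear dimension reduction for finite subsets of `L_p`, from a walk-form spanner lemma.
-/

namespace Vale.Agent.H67

open MeasureTheory

universe u

/-- A set of edges on the points of `X` in which every pair is joined by a walk of total
length at most `σ` times its distance yields a dominating set of pairs of the same size. -/
theorem dominates_of_walks {α : Type*} [PseudoMetricSpace α] (X : Finset α)
    (E : Finset (Sym2 X)) (σ : ℝ)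
    (hE : ∀ u v : X, u ≠ v → ∃ p : (SimpleGraph.fromEdgeSet (E : Set (Sym2 X))).Walk u v,
      (p.darts.map (fun d => dist (d.fst : α) (d.snd : α))).sum ≤ σ * dist (u : α) (v : α)) :
    ∃ H : Finset (α × α), H.card ≤ E.card ∧ Dominates X H σ := by
  classical
  let rep : Sym2 X → X × X := fun e => @Quot.out (X × X) (Sym2.Rel X) e
  have hrep : ∀ e : Sym2 X, s((rep e).1, (rep e).2) = e := fun e => Quot.out_eq e
  let φ : Sym2 X → α × α := fun e => (((rep e).1 : α), ((rep e).2 : α))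
  refine ⟨E.image φ, Finset.card_image_le, ?_⟩
  intro t L hL hH u hu v hv
  have hedge : ∀ a b : X, (SimpleGraph.fromEdgeSet (E : Set (Sym2 X))).Adj a b →
      |t a - t b| ≤ L * dist (a : α) (b : α) := by
    intro a b hab
    rw [SimpleGraph.fromEdgeSet_adj] at hab
    obtain ⟨hmem, hne⟩ := hab
    have hmem' : s(a, b) ∈ E := Finset.mem_coe.mp hmem
    have h1 := hH (φ s(a, b)) (Finset.mem_image_of_mem φ hmem')
    have hout := hrep s(a, b)
    rcases hxy : rep s(a, b) with ⟨x, y⟩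
    rw [hxy] at hout
    simp only at hout
    have h2 := Sym2.eq_iff.mp hout
    simp only [φ, hxy] at h1
    rcases h2 with ⟨rfl, rfl⟩ | ⟨rfl, rfl⟩
    · exact h1
    · rw [abs_sub_comm, dist_comm]; exact h1
  have hwalk : ∀ (a b : X) (p : (SimpleGraph.fromEdgeSet (E : Set (Sym2 X))).Walk a b),
      |t a - t b| ≤ L * (p.darts.map (fun d => dist (d.fst : α) (d.snd : α))).sum := by
    intro a b p
    induction p with
    | nil => simp
    | @cons a c b h p ih =>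
      simp only [SimpleGraph.Walk.darts_cons, List.map_cons, List.sum_cons]
      have h1 := hedge _ _ h
      have h2 := abs_sub_le (t (a : α)) (t (c : α)) (t (b : α))
      rw [mul_add]; linarith
  by_cases huv : u = v
  · subst huv
    simp
  · obtain ⟨p, hp⟩ := hE ⟨u, hu⟩ ⟨v, hv⟩ (by simpa using huv)
    have h1 := hwalk _ _ p
    calc |t u - t v| ≤ L * (p.darts.map (fun d => dist (d.fst : α) (d.snd : α))).sum := h1
      _ ≤ L * (σ * dist u v) := mul_le_mul_of_nonneg_left hp hL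
      _ = σ * L * dist u v := by ring


/-- From a dominating set of pairs to an embedding into `ℓ_p^d` with distortion `D`. -/
theorem embed_of_dominates (P : ENNReal) [hP1 : Fact (1 ≤ P)] (hP : P ≠ ⊤) (D : ℝ) (hD : 1 < D)
    {Ω : Type*} [MeasurableSpace Ω] (μ : Measure Ω) (X : Finset (Lp ℝ P μ))
    (H : Finset (Lp ℝ P μ × Lp ℝ P μ)) (σ : ℝ) (hσ0 : 0 ≤ σ) (hHdom : Dominates X H σ)
    (hX : 2 ≤ X.card) :
    ∃ (d : ℕ) (f : Lp ℝ P μ → PiLp P (fun _ : Fin d => ℝ)) (s : ℝ),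
      (d : ℝ) ≤ 4 * (σ ^ P.toReal * H.card) * Real.log (2 * (X.card : ℝ) ^ 2) /
        ((D ^ P.toReal - 1) / (D ^ P.toReal + 1)) ^ 2 + 1 ∧ 0 < s ∧
      ∀ x ∈ X, ∀ y ∈ X, s * ‖x - y‖ ≤ ‖f x - f y‖ ∧ ‖f x - f y‖ ≤ D * s * ‖x - y‖ := by
  have hP0 : P ≠ 0 := (lt_of_lt_of_le zero_lt_one hP1.out).ne'
  have hpos : 0 < P.toReal := ENNReal.toReal_pos hP0 hP
  set p := P.toReal with hp
  have hDp : 1 < D ^ p := Real.one_lt_rpow hD hpos
  set ε := (D ^ p - 1) / (D ^ p + 1) with hε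
  have hε0 : 0 < ε := div_pos (by linarith) (by linarith)
  have hε1 : ε < 1 := by rw [hε, div_lt_one (by linarith)]; linarith
  have hεD : 1 + ε = D ^ p * (1 - ε) := by rw [hε]; field_simp; ring
  have hσp : 0 ≤ σ ^ p := Real.rpow_nonneg hσ0 _
  set n := X.card with hn
  have hn2 : (2:ℝ) ≤ n := by exact_mod_cast hX
  set Z : ℝ := 4 * (σ ^ p * H.card) * Real.log (2 * (n : ℝ) ^ 2) / ε ^ 2 with hZ
  have hlog0 : 0 ≤ Real.log (2 * (n : ℝ) ^ 2) := Real.log_nonneg (by nlinarith)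
  have hZ0 : 0 ≤ Z := by rw [hZ]; positivity
  set N := ⌊Z⌋₊ + 1 with hN
  have hNlt : 4 * (σ ^ p * H.card) * Real.log (2 * (n : ℝ) ^ 2) < N * ε ^ 2 := by
    have h1 := Nat.lt_floor_add_one Z
    have h2 : Z < (N : ℝ) := by rw [hN]; push_cast; exact h1
    rw [hZ, div_lt_iff₀ (by positivity)] at h2
    exact h2
  obtain ⟨ω, w, hw0, hwX⟩ := embed_core hP X H σ hσ0 hHdom ε hε0 hε1.le N hX hNlt
  refine ⟨N, fun x => WithLp.toLp P (fun l => (w l) ^ (1 / p) * x (ω l)),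
    (1 - ε) ^ (1 / p), ?_, ?_, ?_⟩
  · rw [hN]; push_cast
    linarith [Nat.floor_le hZ0]
  · exact Real.rpow_pos_of_pos (by linarith) _
  · intro x hx y hy
    obtain ⟨h1, h2⟩ := hwX x hx y hy
    have hnorm : ‖(WithLp.toLp P (fun l => (w l) ^ (1 / p) * x (ω l)) :
        PiLp P (fun _ : Fin N => ℝ)) - WithLp.toLp P (fun l => (w l) ^ (1 / p) * y (ω l))‖ ^ p
        = ∑ l, w l * |x (ω l) - y (ω l)| ^ p := by
      rw [PiLp.norm_eq_sum hpos, ← Real.rpow_mul (Finset.sum_nonneg (fun i _ =>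
        Real.rpow_nonneg (norm_nonneg _) _)), one_div, inv_mul_cancel₀ hpos.ne', Real.rpow_one]
      refine Finset.sum_congr rfl (fun l _ => ?_)
      simp only [WithLp.ofLp_sub, Pi.sub_apply, ← hp]
      rw [← mul_sub, Real.norm_eq_abs, abs_mul, Real.mul_rpow (abs_nonneg _) (abs_nonneg _),
        abs_of_nonneg (Real.rpow_nonneg (hw0 l) _), ← Real.rpow_mul (hw0 l),
        inv_mul_cancel₀ hpos.ne', Real.rpow_one]
    set Bn := ‖(WithLp.toLp P (fun l => (w l) ^ (1 / p) * x (ω l)) :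
        PiLp P (fun _ : Fin N => ℝ)) - WithLp.toLp P (fun l => (w l) ^ (1 / p) * y (ω l))‖
      with hBn
    have hBn0 : 0 ≤ Bn := norm_nonneg _
    have hA0 : 0 ≤ ‖x - y‖ := norm_nonneg _
    have h1ε : 0 < 1 - ε := by linarith
    have hs0 : 0 ≤ (1 - ε) ^ (1 / p) := Real.rpow_nonneg h1ε.le _
    have hsp : ((1 - ε) ^ (1 / p)) ^ p = 1 - ε := by
      rw [← Real.rpow_mul h1ε.le, one_div, inv_mul_cancel₀ hpos.ne', Real.rpow_one]
    rw [← hnorm] at h1 h2
    constructor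
    · have h3 : ((1 - ε) ^ (1 / p) * ‖x - y‖) ^ p ≤ Bn ^ p := by
        rw [Real.mul_rpow hs0 hA0, hsp]; exact h1
      exact (Real.rpow_le_rpow_iff (mul_nonneg hs0 hA0) hBn0 hpos).mp h3
    · have hD0 : 0 ≤ D := by linarith
      have h3 : Bn ^ p ≤ (D * (1 - ε) ^ (1 / p) * ‖x - y‖) ^ p := by
        rw [Real.mul_rpow (mul_nonneg hD0 hs0) hA0, Real.mul_rpow hD0 hs0, hsp, ← hεD]
        exact h2
      exact (Real.rpow_le_rpow_iff hBn0 (mul_nonneg (mul_nonneg hD0 hs0) hA0) hpos).mp h3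

/-- Quasi-linear dimension reduction, given a walk-form `(2k-1)`-spanner lemma. -/
theorem quasi_linear_of_spanner
    (hsp : ∀ (V : Type u) [Fintype V] [DecidableEq V] (w : V → V → ℝ),
      (∀ u v, w u v = w v u) → ∀ (k t : ℕ), 1 ≤ k → Fintype.card V < t ^ k →
      ∃ (E : Finset (Sym2 V)), E.card ≤ Fintype.card V * t ∧ ∀ u v : V, u ≠ v →
        ∃ p : (SimpleGraph.fromEdgeSet (E : Set (Sym2 V))).Walk u v,
          (p.darts.map (fun d => w d.fst d.snd)).sum ≤ (2 * (k : ℝ) - 1) * w u v)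
    (P : ENNReal) [hP1 : Fact (1 ≤ P)] (hP : P ≠ ⊤) (D : ℝ) (hD : 1 < D) :
    ∃ C : ℝ, ∀ (Ω : Type u) [MeasurableSpace Ω] (μ : Measure Ω) (X : Finset (Lp ℝ P μ)),
      ∃ (d : ℕ) (f : Lp ℝ P μ → PiLp P (fun _ : Fin d => ℝ)) (s : ℝ),
        (d : ℝ) ≤ C * (X.card : ℝ) * Real.log (X.card : ℝ) ^ (P.toReal + 1) ∧ 0 < s ∧
        ∀ x ∈ X, ∀ y ∈ X, s * ‖x - y‖ ≤ ‖f x - f y‖ ∧ ‖f x - f y‖ ≤ D * s * ‖x - y‖ := by
  have hP0 : P ≠ 0 := (lt_of_lt_of_le zero_lt_one hP1.out).ne'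
  have hpos : 0 < P.toReal := ENNReal.toReal_pos hP0 hP
  set p := P.toReal with hp
  have hDp : 1 < D ^ p := Real.one_lt_rpow hD hpos
  set ε := (D ^ p - 1) / (D ^ p + 1) with hε
  have hε0 : 0 < ε := div_pos (by linarith) (by linarith)
  have hlog2 : (0:ℝ) < Real.log 2 := Real.log_pos (by norm_num)
  have hlog2' : (1:ℝ) / 2 < Real.log 2 := by
    have := Real.log_two_gt_d9
    linarith
  set C1 : ℝ := 36 * (4:ℝ) ^ p / ε ^ 2 with hC1
  set C2 : ℝ := 1 / Real.log 2 ^ (p + 1) with hC2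
  have hC10 : 0 ≤ C1 := by rw [hC1]; positivity
  have hC20 : 0 ≤ C2 := by rw [hC2]; positivity
  refine ⟨C1 + C2, ?_⟩
  intro Ω _ μ X
  classical
  by_cases hX : X.card < 2
  · refine ⟨0, fun _ => 0, 1, ?_, one_pos, ?_⟩
    · have h1 : (0:ℝ) ≤ Real.log (X.card : ℝ) := Real.log_natCast_nonneg _
      have h2 : (0:ℝ) ≤ Real.log (X.card : ℝ) ^ (p + 1) := Real.rpow_nonneg h1 _
      simp only [Nat.cast_zero]
      exact mul_nonneg (mul_nonneg (by linarith) (Nat.cast_nonneg _)) h2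
    · intro x hx y hy
      have hxy : x = y := Finset.card_le_one.mp (by omega) x hx y hy
      subst hxy; simp
  · rw [not_lt] at hX
    set n := X.card with hn
    have hn2 : (2:ℝ) ≤ n := by exact_mod_cast hX
    have hn0 : (0:ℝ) < n := by linarith
    have hlogn : Real.log 2 ≤ Real.log n := Real.log_le_log (by norm_num) hn2
    have hlogn0 : 0 < Real.log n := lt_of_lt_of_le hlog2 hlogn
    set k := Nat.log 3 n + 1 with hk
    have hcard : Fintype.card X = n := Fintype.card_coe X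
    have hnk : Fintype.card X < 3 ^ k := by
      rw [hcard, hk]; exact Nat.lt_pow_succ_log_self (by norm_num) n
    obtain ⟨E, hEcard, hEwalk⟩ := hsp X (fun u v => dist (u : Lp ℝ P μ) (v : Lp ℝ P μ))
      (fun u v => dist_comm _ _) k 3 (by omega) hnk
    obtain ⟨H, hHcard, hHdom⟩ := dominates_of_walks X E (2 * (k : ℝ) - 1) hEwalk
    have hk1 : (1:ℝ) ≤ k := by rw [hk]; push_cast; linarith [Nat.cast_nonneg (α := ℝ) (Nat.log 3 n)]
    have hσ0 : (0:ℝ) ≤ 2 * (k : ℝ) - 1 := by linarith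
    obtain ⟨d, f, s, hd, hs, hdist⟩ := embed_of_dominates P hP D hD μ X H (2 * (k : ℝ) - 1)
      hσ0 hHdom hX
    refine ⟨d, f, s, ?_, hs, hdist⟩
    -- the dimension bound
    have hlog3 : (1:ℝ) ≤ Real.log 3 := by
      rw [Real.le_log_iff_exp_le (by norm_num)]
      have := Real.exp_one_lt_d9
      linarith
    have hnatlog : (Nat.log 3 n : ℝ) ≤ Real.log n := by
      have h1 : 3 ^ Nat.log 3 n ≤ n := Nat.pow_log_le_self 3 (by omega)
      have h2 : ((3:ℝ) ^ Nat.log 3 n) ≤ n := by exact_mod_cast h1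
      have h3 : Real.log ((3:ℝ) ^ Nat.log 3 n) ≤ Real.log n :=
        Real.log_le_log (by positivity) h2
      rw [Real.log_pow] at h3
      have h4 : (0:ℝ) ≤ Nat.log 3 n := Nat.cast_nonneg _
      nlinarith
    have hσle : 2 * (k : ℝ) - 1 ≤ 4 * Real.log n := by
      rw [hk]; push_cast
      linarith
    have hσp : (2 * (k : ℝ) - 1) ^ p ≤ (4:ℝ) ^ p * Real.log n ^ p := by
      rw [← Real.mul_rpow (by norm_num) hlogn0.le]
      exact Real.rpow_le_rpow hσ0 hσle hpos.le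
    have hHle : (H.card : ℝ) ≤ 3 * n := by
      have h1 : H.card ≤ n * 3 := by
        have := le_trans hHcard hEcard
        rwa [hcard] at this
      have h2 : (H.card : ℝ) ≤ (n : ℝ) * 3 := by exact_mod_cast h1
      linarith
    have hlog2n : Real.log (2 * (n : ℝ) ^ 2) ≤ 3 * Real.log n := by
      have h1 : Real.log (2 * (n : ℝ) ^ 2) ≤ Real.log ((n : ℝ) ^ 3) :=
        Real.log_le_log (by positivity) (by nlinarith)
      rw [Real.log_pow] at h1
      push_cast at h1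
      exact h1
    have hlog2n0 : 0 ≤ Real.log (2 * (n : ℝ) ^ 2) := Real.log_nonneg (by nlinarith)
    have hpow1 : Real.log n ^ (p + 1) = Real.log n ^ p * Real.log n :=
      Real.rpow_add_one hlogn0.ne' p
    have hlp0 : 0 ≤ Real.log n ^ p := Real.rpow_nonneg hlogn0.le _
    have h4p : (0:ℝ) ≤ (4:ℝ) ^ p := Real.rpow_nonneg (by norm_num) _
    have hmain : 4 * ((2 * (k : ℝ) - 1) ^ p * H.card) * Real.log (2 * (n : ℝ) ^ 2) / ε ^ 2 ≤
        C1 * n * Real.log n ^ (p + 1) := by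
      have h1 : (2 * (k : ℝ) - 1) ^ p * H.card ≤ (4:ℝ) ^ p * Real.log n ^ p * (3 * n) :=
        mul_le_mul hσp hHle (Nat.cast_nonneg _) (mul_nonneg h4p hlp0)
      have h2 : (2 * (k : ℝ) - 1) ^ p * H.card * Real.log (2 * (n : ℝ) ^ 2) ≤
          (4:ℝ) ^ p * Real.log n ^ p * (3 * n) * (3 * Real.log n) :=
        mul_le_mul h1 hlog2n hlog2n0 (by positivity)
      have h3 : 4 * ((2 * (k : ℝ) - 1) ^ p * H.card) * Real.log (2 * (n : ℝ) ^ 2) / ε ^ 2 ≤
          4 * ((4:ℝ) ^ p * Real.log n ^ p * (3 * n) * (3 * Real.log n)) / ε ^ 2 := by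
        apply div_le_div_of_nonneg_right _ (by positivity)
        linarith
      have h4 : 4 * ((4:ℝ) ^ p * Real.log n ^ p * (3 * n) * (3 * Real.log n)) / ε ^ 2 =
          C1 * n * Real.log n ^ (p + 1) := by
        rw [hpow1, hC1]; field_simp; ring
      rw [h4] at h3; exact h3
    have hone : (1:ℝ) ≤ C2 * n * Real.log n ^ (p + 1) := by
      have h1 : Real.log 2 ^ (p + 1) ≤ Real.log n ^ (p + 1) :=
        Real.rpow_le_rpow hlog2.le hlogn (by linarith)
      have h2 : 0 < Real.log 2 ^ (p + 1) := Real.rpow_pos_of_pos hlog2 _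
      have h3 : C2 * n * Real.log n ^ (p + 1) = n * (Real.log n ^ (p + 1) / Real.log 2 ^ (p + 1)) := by
        rw [hC2]; field_simp
      rw [h3]
      have h4 : 1 ≤ Real.log n ^ (p + 1) / Real.log 2 ^ (p + 1) := by
        rw [le_div_iff₀ h2]; linarith
      nlinarith
    calc (d : ℝ) ≤ 4 * ((2 * (k : ℝ) - 1) ^ p * H.card) * Real.log (2 * (n : ℝ) ^ 2) /
          ((D ^ p - 1) / (D ^ p + 1)) ^ 2 + 1 := hd
      _ ≤ C1 * n * Real.log n ^ (p + 1) + C2 * n * Real.log n ^ (p + 1) := by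
          have := hmain
          linarith
      _ = (C1 + C2) * n * Real.log n ^ (p + 1) := by ring

end Vale.Agent.H67
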